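import Vale.Agent.P231.QO.Crd

/-! P231: the octonionic projective plane as the set of Hermitian idempotent `3 × 3` matrices of
trace one. -/

set_option maxSynthPendingDepth 3
set_option linter.unusedSectionVars false

open Module Set

namespace Vale.Agent.P231.QO

noncomputable section

/-- the points of the octonionic projective plane: Hermitian idempotent `3 × 3` matrices of trace
one -/
def IsCayley (A : Fin 3 → Fin 3 → Oc) : Prop :=
  (∀ i j, A j i = ocj (A i j)) ∧ (∀ i j, ∑ k, ocm (A i k) (A k j) = A i j) ∧ ∑ i, A i i = o1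

/-- the vector -/
def yv (t : ℝ) (z : OV) : Fin 3 → Oc := ![t • o1, z.fst, z.snd]

theorem yv_zero (t : ℝ) (z : OV) : yv t z 0 = t • o1 := rfl

theorem yv_one (t : ℝ) (z : OV) : yv t z 1 = z.fst := rfl

theorem yv_two (t : ℝ) (z : OV) : yv t z 2 = z.snd := rfl

/-- the matrix -/
def Am (t : ℝ) (z : OV) (i j : Fin 3) : Oc := om (cj o1 (yv t z i)) (yv t z j)

theorem Am_apply (t : ℝ) (z : OV) (i j : Fin 3) :
    Am t z i j = om (cj o1 (yv t z i)) (yv t z j) := rfl

theorem cj_smul_one (t : ℝ) : cj o1 (t • o1) = t • o1 := by rw [map_smul, om_CA.cj_one]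

theorem om_smul_one_l (t : ℝ) (x : Oc) : om (t • o1) x = t • x := by
  rw [map_smul, LinearMap.smul_apply, om_CA.one_mul]

theorem om_smul_one_r (t : ℝ) (x : Oc) : om x (t • o1) = t • x := by
  rw [map_smul, om_CA.mul_one]

theorem tri_ik (x y : Oc) :
    om (om (cj o1 x) x) (om (cj o1 x) y) = (inner ℝ x x : ℝ) • om (cj o1 x) y := by
  rw [om_CA.cj_mul_self, om_smul_one_l]

theorem tri_kj (x y : Oc) :
    om (om (cj o1 x) y) (om (cj o1 y) y) = (inner ℝ y y : ℝ) • om (cj o1 x) y := by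
  rw [om_CA.cj_mul_self, om_smul_one_r]

theorem tri_ij (x y : Oc) :
    om (om (cj o1 x) y) (om (cj o1 y) x) = (inner ℝ y y : ℝ) • om (cj o1 x) x := by
  have h1 : om (cj o1 y) x = cj o1 (om (cj o1 x) y) := by
    rw [om_CA.cj_mul, om_CA.cj_cj]
  rw [h1, om_CA.mul_cj_self, om_CA.nm, om_CA.inner_cj_cj, om_CA.cj_mul_self, smul_smul, mul_comm]

theorem tri_0 (t : ℝ) (x y : Oc) : om (om (cj o1 (t • o1)) x) (om (cj o1 x) y) =
    (inner ℝ x x : ℝ) • om (cj o1 (t • o1)) y := by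
  rw [cj_smul_one, om_smul_one_l, om_smul_one_l, map_smul, LinearMap.smul_apply,
    om_CA.mul_cj_mul, smul_comm]

theorem tri_1 (t : ℝ) (x y : Oc) : om (om (cj o1 x) (t • o1)) (om (cj o1 (t • o1)) y) =
    (inner ℝ (t • o1) (t • o1) : ℝ) • om (cj o1 x) y := by
  rw [cj_smul_one, om_smul_one_l, om_smul_one_r, map_smul (om (t • cj o1 x)), map_smul om,
    LinearMap.smul_apply, smul_smul, real_inner_smul_left, real_inner_smul_right, om_CA.unit,
    mul_one]

theorem tri_2 (t : ℝ) (x y : Oc) : om (om (cj o1 x) y) (om (cj o1 y) (t • o1)) =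
    (inner ℝ y y : ℝ) • om (cj o1 x) (t • o1) := by
  rw [om_smul_one_r, om_smul_one_r, map_smul, om_CA.mul_mul_cj, smul_comm]

theorem tri (t : ℝ) (z : OV) (i k j : Fin 3) : om (Am t z i k) (Am t z k j) =
    (inner ℝ (yv t z k) (yv t z k) : ℝ) • Am t z i j := by
  unfold Am
  by_cases h1 : i = k
  · subst h1
    exact tri_ik _ _
  by_cases h2 : k = j
  · subst h2
    exact tri_kj _ _
  by_cases h3 : i = j
  · subst h3
    exact tri_ij _ _
  by_cases h4 : i = 0
  · subst h4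
    exact tri_0 t _ _
  by_cases h5 : k = 0
  · subst h5
    exact tri_1 t _ _
  by_cases h6 : j = 0
  · subst h6
    exact tri_2 t _ _
  omega

theorem Am_diag (t : ℝ) (z : OV) (i : Fin 3) :
    Am t z i i = (inner ℝ (yv t z i) (yv t z i) : ℝ) • o1 := om_CA.cj_mul_self _

theorem Am_symm (t : ℝ) (z : OV) (i j : Fin 3) : Am t z j i = cj o1 (Am t z i j) := by
  unfold Am
  rw [om_CA.cj_mul, om_CA.cj_cj]

theorem sum_yv (t : ℝ) (z : OV) : ∑ k, (inner ℝ (yv t z k) (yv t z k) : ℝ) =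
    t ^ 2 + inner ℝ z z := by
  rw [Fin.sum_univ_three, yv_zero, yv_one, yv_two, real_inner_smul_left, real_inner_smul_right,
    om_CA.unit, inner_OV]
  ring

theorem isCayley_Am {t : ℝ} {z : OV} (h : t ^ 2 + inner ℝ z z = 1) : IsCayley (Am t z) := by
  refine ⟨fun i j => ?_, fun i j => ?_, ?_⟩
  · rw [Am_symm, cj_eq]
  · have h1 : ∀ k, ocm (Am t z i k) (Am t z k j) =
        (inner ℝ (yv t z k) (yv t z k) : ℝ) • Am t z i j := fun k => tri t z i k j
    rw [Finset.sum_congr rfl fun k _ => h1 k, ← Finset.sum_smul, sum_yv, h, one_smul]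
  · rw [Finset.sum_congr rfl fun k _ => Am_diag t z k, ← Finset.sum_smul, sum_yv, h, one_smul]

/-- the inner product of two points -/
theorem inner_Am (t s : ℝ) (z w : OV) : ∑ i, ∑ j, (inner ℝ (Am t z i j) (Am s w i j) : ℝ) =
    (t * s) ^ 2 + 2 * (t * s) * inner ℝ z w + lin z w := by
  have hd : ∀ i, (inner ℝ (Am t z i i) (Am s w i i) : ℝ) =
      inner ℝ (yv t z i) (yv t z i) * inner ℝ (yv s w i) (yv s w i) := fun i => by
    rw [Am_diag, Am_diag, real_inner_smul_left, real_inner_smul_right, om_CA.unit, mul_one]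
  have hs : ∀ i j, (inner ℝ (Am t z j i) (Am s w j i) : ℝ) =
      inner ℝ (Am t z i j) (Am s w i j) := fun i j => by
    rw [Am_symm t z i j, Am_symm s w i j, om_CA.inner_cj_cj]
  have h01 : (inner ℝ (Am t z 0 1) (Am s w 0 1) : ℝ) = t * s * inner ℝ z.fst w.fst := by
    unfold Am
    rw [yv_zero, yv_zero, yv_one, yv_one, cj_smul_one, cj_smul_one, om_smul_one_l, om_smul_one_l,
      real_inner_smul_left, real_inner_smul_right]
    ring
  have h02 : (inner ℝ (Am t z 0 2) (Am s w 0 2) : ℝ) = t * s * inner ℝ z.snd w.snd := by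
    unfold Am
    rw [yv_zero, yv_zero, yv_two, yv_two, cj_smul_one, cj_smul_one, om_smul_one_l, om_smul_one_l,
      real_inner_smul_left, real_inner_smul_right]
    ring
  have h12 : (inner ℝ (Am t z 1 2) (Am s w 1 2) : ℝ) =
      inner ℝ (om (cj o1 z.fst) z.snd) (om (cj o1 w.fst) w.snd) := rfl
  rw [Fin.sum_univ_three, Fin.sum_univ_three, Fin.sum_univ_three, Fin.sum_univ_three,
    hd 0, hd 1, hd 2, hs 0 1, hs 0 2, hs 1 2, h01, h02, h12, yv_zero, yv_zero, yv_one, yv_one,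
    yv_two, yv_two, real_inner_smul_left, real_inner_smul_right, real_inner_smul_left,
    real_inner_smul_right, om_CA.unit, inner_OV]
  unfold lin
  ring

/-- it is enough to compare the upper entries -/
theorem Am_ext {A : Fin 3 → Fin 3 → Oc} (h1 : ∀ i j, A j i = cj o1 (A i j)) {ξ : Fin 3 → ℝ}
    (hξ : ∀ i, A i i = ξ i • o1) {t : ℝ} {z : OV} (k0 : t * t = ξ 0)
    (k1 : inner ℝ z.fst z.fst = ξ 1) (k2 : inner ℝ z.snd z.snd = ξ 2) (k3 : t • z.fst = A 0 1)
    (k4 : t • z.snd = A 0 2) (k5 : om (cj o1 z.fst) z.snd = A 1 2) : Am t z = A := by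
  have q00 : Am t z 0 0 = A 0 0 := by
    rw [Am_diag, yv_zero, real_inner_smul_left, real_inner_smul_right, om_CA.unit, mul_one, k0,
      hξ 0]
  have q11 : Am t z 1 1 = A 1 1 := by rw [Am_diag, yv_one, k1, hξ 1]
  have q22 : Am t z 2 2 = A 2 2 := by rw [Am_diag, yv_two, k2, hξ 2]
  have q01 : Am t z 0 1 = A 0 1 := by
    rw [Am_apply, yv_zero, yv_one, cj_smul_one, om_smul_one_l, k3]
  have q02 : Am t z 0 2 = A 0 2 := by
    rw [Am_apply, yv_zero, yv_two, cj_smul_one, om_smul_one_l, k4]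
  have q12 : Am t z 1 2 = A 1 2 := k5
  have q10 : Am t z 1 0 = A 1 0 := by rw [Am_symm t z 0 1, q01, h1 0 1]
  have q20 : Am t z 2 0 = A 2 0 := by rw [Am_symm t z 0 2, q02, h1 0 2]
  have q21 : Am t z 2 1 = A 2 1 := by rw [Am_symm t z 1 2, q12, h1 1 2]
  funext i j
  fin_cases i <;> fin_cases j <;> assumption

theorem aux3 {x y z a b c : ℝ} (h : x + y + z = 1) (d0 : x * x + c + b = x)
    (d1 : c + y * y + a = y) (d2 : b + a + z * z = z) (na : 0 ≤ a) (nb : 0 ≤ b) (nc : 0 ≤ c) :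
    a = y * z ∧ b = x * z ∧ c = x * y ∧ 0 ≤ x ∧ 0 ≤ y := by
  obtain rfl : x = 1 - y - z := by linarith
  refine ⟨by linear_combination (d1 + d2 - d0) / 2, by linear_combination (d0 + d2 - d1) / 2,
    by linear_combination (d0 + d1 - d2) / 2, ?_, ?_⟩
  · rw [← d0]
    have := mul_self_nonneg (1 - y - z)
    linarith
  · rw [← d1]
    have := mul_self_nonneg y
    linarith

/-- every point has the form `Am t z` -/
theorem exists_Am {A : Fin 3 → Fin 3 → Oc} (hA : IsCayley A) :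
    ∃ (t : ℝ) (z : OV), 0 ≤ t ∧ t ^ 2 + inner ℝ z z = 1 ∧ Am t z = A := by
  obtain ⟨h1, h2, h3⟩ := hA
  have h1' : ∀ i j, A j i = cj o1 (A i j) := fun i j => by rw [h1 i j, cj_eq]
  have h2' : ∀ i j, om (A i 0) (A 0 j) + om (A i 1) (A 1 j) + om (A i 2) (A 2 j) = A i j := by
    intro i j
    have h4 := h2 i j
    rw [Fin.sum_univ_three] at h4
    exact h4
  obtain ⟨ξ, hξ⟩ : ∃ ξ : Fin 3 → ℝ, ∀ i, A i i = ξ i • o1 := by
    refine ⟨fun i => inner ℝ o1 (A i i), fun i => ?_⟩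
    have h4 := h1' i i
    rw [cj_apply, eq_sub_iff_add_eq, ← two_smul ℝ, ← smul_smul] at h4
    exact smul_right_injective Oc (two_ne_zero' ℝ) h4
  have ho : (o1 : Oc) ≠ 0 := fun h => by
    have h4 := om_CA.unit
    rw [h, inner_zero_left] at h4
    exact zero_ne_one h4
  have hre : ∀ a b : ℝ, a • (o1 : Oc) = b • o1 → a = b := fun a b h =>
    smul_left_injective ℝ ho h
  have htr : ξ 0 + ξ 1 + ξ 2 = 1 := by
    refine hre _ _ ?_
    rw [Fin.sum_univ_three, hξ 0, hξ 1, hξ 2] at h3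
    rw [add_smul, add_smul, h3, one_smul]
  set a := A 1 2 with ha
  set b := A 2 0 with hb
  set c := A 0 1 with hc
  have h21 : A 2 1 = cj o1 a := h1' 1 2
  have h02 : A 0 2 = cj o1 b := h1' 2 0
  have h10 : A 1 0 = cj o1 c := h1' 0 1
  have d0 : ξ 0 * ξ 0 + inner ℝ c c + inner ℝ b b = ξ 0 := by
    have h4 := h2' 0 0
    rw [hξ 0, ← hc, h10, h02, ← hb, om_smul_one_l, om_CA.mul_cj_self, om_CA.cj_mul_self,
      smul_smul, ← add_smul, ← add_smul] at h4
    exact hre _ _ h4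
  have d1 : inner ℝ c c + ξ 1 * ξ 1 + inner ℝ a a = ξ 1 := by
    have h4 := h2' 1 1
    rw [hξ 1, h10, ← hc, ← ha, h21, om_smul_one_l, om_CA.mul_cj_self, om_CA.cj_mul_self,
      smul_smul, ← add_smul, ← add_smul] at h4
    exact hre _ _ h4
  have d2 : inner ℝ b b + inner ℝ a a + ξ 2 * ξ 2 = ξ 2 := by
    have h4 := h2' 2 2
    rw [hξ 2, ← hb, h02, h21, ← ha, om_smul_one_l, om_CA.mul_cj_self, om_CA.cj_mul_self,
      smul_smul, ← add_smul, ← add_smul] at h4
    exact hre _ _ h4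
  have e12 : om (cj o1 c) (cj o1 b) = ξ 0 • a := by
    have h4 := h2' 1 2
    rw [h10, h02, hξ 1, ← ha, hξ 2, om_smul_one_l, om_smul_one_r, ← eq_sub_iff_add_eq,
      ← eq_sub_iff_add_eq] at h4
    have h5 : ξ 0 = 1 - ξ 1 - ξ 2 := by linarith
    rw [h4, h5, sub_smul, sub_smul, one_smul]
    abel
  obtain ⟨haa, hbb, hcc, p0, p1⟩ := aux3 htr d0 d1 d2 real_inner_self_nonneg
    real_inner_self_nonneg real_inner_self_nonneg
  have key : ∀ (t : ℝ) (z : OV), t * t = ξ 0 → inner ℝ z.fst z.fst = ξ 1 →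
      inner ℝ z.snd z.snd = ξ 2 → t • z.fst = c → t • z.snd = cj o1 b →
      om (cj o1 z.fst) z.snd = a → t ^ 2 + inner ℝ z z = 1 ∧ Am t z = A := by
    intro t z k0 k1 k2 k3 k4 k5
    refine ⟨?_, Am_ext h1' hξ k0 k1 k2 k3 (k4.trans h02.symm) k5⟩
    rw [inner_OV, k1, k2, pow_two, k0, ← add_assoc]
    exact htr
  rcases p0.eq_or_lt with z0 | z0
  · have b0 : b = 0 := by
      rw [← z0, zero_mul] at hbb
      exact inner_self_eq_zero.1 hbb
    have c0 : c = 0 := by
      rw [← z0, zero_mul] at hcc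
      exact inner_self_eq_zero.1 hcc
    rcases p1.eq_or_lt with z1 | z1
    · have a0 : a = 0 := by
        rw [← z1, zero_mul] at haa
        exact inner_self_eq_zero.1 haa
      have z2 : ξ 2 = 1 := by linarith
      obtain ⟨k1, k2⟩ := key 0 (ov 0 o1) (by rw [mul_zero]; exact z0)
        (by
          show (inner ℝ (0 : Oc) 0 : ℝ) = _
          rw [inner_zero_left]
          exact z1)
        (by
          show (inner ℝ (o1 : Oc) o1 : ℝ) = _
          rw [om_CA.unit, z2])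
        (by rw [zero_smul, c0]) (by rw [zero_smul, b0, map_zero])
        (by
          show om (cj o1 (0 : Oc)) o1 = a
          rw [map_zero, map_zero, LinearMap.zero_apply, a0])
      exact ⟨0, _, le_rfl, k1, k2⟩
    · have hs : √(ξ 1) * √(ξ 1) = ξ 1 := Real.mul_self_sqrt z1.le
      have hs0 : √(ξ 1) ≠ 0 := (Real.sqrt_pos.2 z1).ne'
      obtain ⟨k1, k2⟩ := key 0 (ov (√(ξ 1) • o1) ((√(ξ 1))⁻¹ • a)) (by rw [mul_zero]; exact z0)
        (by
          show (inner ℝ (√(ξ 1) • o1 : Oc) (√(ξ 1) • o1) : ℝ) = _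
          rw [real_inner_smul_left, real_inner_smul_right, om_CA.unit, mul_one, hs])
        (by
          show (inner ℝ ((√(ξ 1))⁻¹ • a) ((√(ξ 1))⁻¹ • a) : ℝ) = _
          rw [real_inner_smul_left, real_inner_smul_right, haa, ← mul_assoc, ← mul_inv, hs,
            ← mul_assoc, inv_mul_cancel₀ z1.ne', one_mul])
        (by rw [zero_smul, c0]) (by rw [zero_smul, b0, map_zero])
        (by
          show om (cj o1 (√(ξ 1) • o1)) ((√(ξ 1))⁻¹ • a) = a
          rw [cj_smul_one, om_smul_one_l, smul_smul, mul_inv_cancel₀ hs0, one_smul])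
      exact ⟨0, _, le_rfl, k1, k2⟩
  · have hs : √(ξ 0) * √(ξ 0) = ξ 0 := Real.mul_self_sqrt z0.le
    have hs0 : √(ξ 0) ≠ 0 := (Real.sqrt_pos.2 z0).ne'
    obtain ⟨k1, k2⟩ := key (√(ξ 0)) (ov ((√(ξ 0))⁻¹ • c) ((√(ξ 0))⁻¹ • cj o1 b)) hs
      (by
        show (inner ℝ ((√(ξ 0))⁻¹ • c) ((√(ξ 0))⁻¹ • c) : ℝ) = _
        rw [real_inner_smul_left, real_inner_smul_right, hcc, ← mul_assoc, ← mul_inv, hs,
          ← mul_assoc, inv_mul_cancel₀ z0.ne', one_mul])
      (by
        show (inner ℝ ((√(ξ 0))⁻¹ • cj o1 b) ((√(ξ 0))⁻¹ • cj o1 b) : ℝ) = _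
        rw [real_inner_smul_left, real_inner_smul_right, om_CA.inner_cj_cj, hbb, ← mul_assoc,
          ← mul_inv, hs, ← mul_assoc, inv_mul_cancel₀ z0.ne', one_mul])
      (by
        show √(ξ 0) • ((√(ξ 0))⁻¹ • c) = c
        rw [smul_smul, mul_inv_cancel₀ hs0, one_smul])
      (by
        show √(ξ 0) • ((√(ξ 0))⁻¹ • cj o1 b) = _
        rw [smul_smul, mul_inv_cancel₀ hs0, one_smul])
      (by
        show om (cj o1 ((√(ξ 0))⁻¹ • c)) ((√(ξ 0))⁻¹ • cj o1 b) = a
        rw [map_smul, map_smul, map_smul, LinearMap.smul_apply, e12, smul_smul, smul_smul,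
          ← mul_inv, hs, inv_mul_cancel₀ z0.ne', one_smul])
    exact ⟨_, _, Real.sqrt_nonneg _, k1, k2⟩

end

end Vale.Agent.P231.QO
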