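import Vale.Agent.P231.QO.Def
import Vale.Agent.P231.QO.Alb

/-! P231: comparison of the two descriptions of the octonionic projective plane. -/

set_option linter.unusedSectionVars false

namespace Vale.Agent.P231.QO

noncomputable section

open Vale.Agent.P231.CayleyPlane

/-- the octonion as a pair -/
def pr (x : Oc) : Octonion := (x.fst, x.snd)

theorem pr_add (x y : Oc) : pr (x + y) = pr x + pr y := rfl

theorem pr_sum {ι : Type*} (s : Finset ι) (f : ι → Oc) : pr (∑ i ∈ s, f i) = ∑ i ∈ s, pr (f i) := by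
  classical
  refine Finset.induction_on s rfl fun a s ha h => ?_
  rw [Finset.sum_insert ha, Finset.sum_insert ha, pr_add, h]

theorem pr_inj {x y : Oc} (h : pr x = pr y) : x = y :=
  oc_ext (congrArg Prod.fst h) (congrArg Prod.snd h)

theorem pr_ocm (x y : Oc) : pr (ocm x y) = omul (pr x) (pr y) := rfl

theorem pr_ocj (x : Oc) : pr (ocj x) = oconj (pr x) := rfl

theorem pr_oc (x : Octonion) : pr (oc x.1 x.2) = x := rfl

theorem pr_o1 : pr o1 = (1, 0) := rfl

theorem isPoint_iff {A : Fin 3 → Fin 3 → Oc} :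
    IsPoint (fun i j => pr (A i j)) ↔ IsCayley A := by
  unfold IsPoint IsCayley
  refine and_congr ?_ (and_congr ?_ ?_)
  · refine forall_congr' fun i => forall_congr' fun j => ?_
    rw [← pr_ocj]
    exact ⟨fun h => pr_inj h, fun h => congrArg pr h⟩
  · refine forall_congr' fun i => forall_congr' fun j => ?_
    have h1 : ∑ k, omul (pr (A i k)) (pr (A k j)) = pr (∑ k, ocm (A i k) (A k j)) := by
      rw [pr_sum]
      rfl
    rw [h1]
    exact ⟨fun h => pr_inj h, fun h => by rw [h]⟩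
  · have h1 : ∑ i, pr (A i i) = pr (∑ i, A i i) := (pr_sum _ _).symm
    rw [h1, ← pr_o1]
    exact ⟨fun h => pr_inj h, fun h => by rw [h]⟩

theorem re_mul_conj (x y : Oc) : (ocm x (ocj y)).fst.re = inner ℝ x y := by
  have h1 : (ocm x (ocj y)).fst = x.fst * star y.fst - star (-y.snd) * x.snd := rfl
  rw [h1, inner_Oc, Quaternion.inner_def, Quaternion.inner_def]
  simp only [Quaternion.re_mul, Quaternion.re_star, Quaternion.imI_star, Quaternion.imJ_star,
    Quaternion.imK_star, Quaternion.re_sub, Quaternion.re_neg, Quaternion.imI_neg,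
    Quaternion.imJ_neg, Quaternion.imK_neg]
  ring

theorem traceMul_eq {A B : Fin 3 → Fin 3 → Oc} (hB : IsCayley B) :
    traceMul (fun i j => pr (A i j)) (fun i j => pr (B i j)) =
      ∑ i, ∑ j, (inner ℝ (A i j) (B i j) : ℝ) := by
  unfold traceMul
  refine Finset.sum_congr rfl fun i _ => Finset.sum_congr rfl fun j _ => ?_
  rw [← re_mul_conj, ← hB.1 i j]
  rfl

/-- the description by pairs of quaternions -/
theorem exists_pair {X : Type*} {f : X → X → ℝ} {g : ℝ → ℝ}
    (h : ∃ Z : X → Fin 3 → Fin 3 → Oc, (∀ x, IsCayley (Z x)) ∧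
      (∀ x y, f x y = g (∑ i, ∑ j, (inner ℝ (Z x i j) (Z y i j) : ℝ))) ∧
      ∀ A, IsCayley A → ∃ x, Z x = A) :
    ∃ Z : X → Fin 3 → Fin 3 → Octonion, (∀ x, IsPoint (Z x)) ∧
      (∀ x y, f x y = g (traceMul (Z x) (Z y))) ∧ ∀ A, IsPoint A → ∃ x, Z x = A := by
  obtain ⟨Z, h1, h2, h3⟩ := h
  refine ⟨fun x i j => pr (Z x i j), fun x => isPoint_iff.2 (h1 x), fun x y => ?_,
    fun A hA => ?_⟩
  · rw [h2, traceMul_eq (h1 y)]
  · obtain ⟨x, hx⟩ := h3 (fun i j => oc (A i j).1 (A i j).2) (isPoint_iff.1 hA)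
    refine ⟨x, ?_⟩
    funext i j
    show pr (Z x i j) = A i j
    rw [hx]
    exact pr_oc _

end

end Vale.Agent.P231.QO
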