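import Mathlib.Analysis.InnerProductSpace.PiL2
import Mathlib.Analysis.InnerProductSpace.ProdL2
import Mathlib.Analysis.Quaternion

/-! P231: composition algebras (real, with unit): conjugation, alternative laws, Moufang
identities, doubling. -/

set_option linter.unusedSectionVars false

open Module

namespace Vale.Agent.P231.QO

variable {A : Type*} [NormedAddCommGroup A] [InnerProductSpace ℝ A]

/-- a composition algebra with unit `o` -/
structure CA (m : A →ₗ[ℝ] A →ₗ[ℝ] A) (o : A) : Prop where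
  nm : ∀ x y, (inner ℝ (m x y) (m x y) : ℝ) = inner ℝ x x * inner ℝ y y
  one_mul : ∀ x, m o x = x
  mul_one : ∀ x, m x o = x
  unit : (inner ℝ o o : ℝ) = 1

/-- the conjugation -/
noncomputable def cj (o : A) : A →ₗ[ℝ] A :=
  (2 : ℝ) • (innerₗ A o).smulRight o - LinearMap.id

theorem cj_apply (o x : A) : cj o x = (2 * inner ℝ o x : ℝ) • o - x := by
  simp [cj, smul_smul]

variable {m : A →ₗ[ℝ] A →ₗ[ℝ] A} {o : A}

namespace CA

theorem ext_left {x y : A} (h : ∀ z, (inner ℝ x z : ℝ) = inner ℝ y z) : x = y :=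
  ext_inner_right ℝ h

theorem nm_l (h : CA m o) (x y z : A) :
    (inner ℝ (m x y) (m x z) : ℝ) = inner ℝ x x * inner ℝ y z := by
  have h1 := h.nm x (y + z)
  have h2 := h.nm x y
  have h3 := h.nm x z
  simp only [map_add, inner_add_left, inner_add_right] at h1
  rw [real_inner_comm (m x y) (m x z), real_inner_comm y z] at h1
  linarith

theorem nm_r (h : CA m o) (x y z : A) :
    (inner ℝ (m x z) (m y z) : ℝ) = inner ℝ x y * inner ℝ z z := by
  have h1 := h.nm (x + y) z
  have h2 := h.nm x z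
  have h3 := h.nm y z
  simp only [map_add, LinearMap.add_apply, inner_add_left, inner_add_right] at h1
  rw [real_inner_comm (m x z) (m y z), real_inner_comm x y] at h1
  linarith

/-- the full polarisation -/
theorem nm2 (h : CA m o) (x y z w : A) :
    (inner ℝ (m x y) (m z w) : ℝ) + inner ℝ (m x w) (m z y) =
      2 * inner ℝ x z * inner ℝ y w := by
  have h1 := h.nm_l (x + z) y w
  have h2 := h.nm_l x y w
  have h3 := h.nm_l z y w
  simp only [map_add, LinearMap.add_apply, inner_add_left, inner_add_right] at h1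
  rw [real_inner_comm (m x w) (m z y), real_inner_comm x z] at h1
  linarith

theorem adj_l (h : CA m o) (x y z : A) :
    (inner ℝ (m x y) z : ℝ) = inner ℝ y (m (cj o x) z) := by
  have h1 := h.nm2 x y o z
  rw [h.one_mul, h.one_mul] at h1
  rw [cj_apply, map_sub, map_smul, LinearMap.sub_apply, LinearMap.smul_apply, h.one_mul,
    inner_sub_right, inner_smul_right, real_inner_comm (m x z) y, real_inner_comm x o]
  linarith

theorem adj_r (h : CA m o) (x y z : A) :
    (inner ℝ (m x y) z : ℝ) = inner ℝ x (m z (cj o y)) := by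
  have h1 := h.nm2 x y z o
  rw [h.mul_one, h.mul_one] at h1
  rw [cj_apply, map_sub, map_smul, h.mul_one, inner_sub_right, inner_smul_right,
    real_inner_comm y o]
  linarith

theorem cj_one (h : CA m o) : cj o o = o := by
  rw [cj_apply, h.unit]
  module

theorem cj_cj (h : CA m o) (x : A) : cj o (cj o x) = x := by
  rw [cj_apply, cj_apply, inner_sub_right, inner_smul_right, h.unit]
  module

theorem inner_cj_cj (h : CA m o) (x y : A) : (inner ℝ (cj o x) (cj o y) : ℝ) = inner ℝ x y := by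
  rw [cj_apply, cj_apply, inner_sub_left, inner_sub_right, inner_sub_right, inner_smul_left,
    inner_smul_left, inner_smul_right, inner_smul_right, h.unit, real_inner_comm o x]
  simp only [RCLike.conj_to_real]
  ring

theorem inner_cj (h : CA m o) (x y : A) : (inner ℝ (cj o x) y : ℝ) = inner ℝ x (cj o y) := by
  rw [← h.inner_cj_cj x, h.cj_cj]

theorem inner_one_cj (h : CA m o) (x : A) : (inner ℝ o (cj o x) : ℝ) = inner ℝ o x := by
  rw [← h.inner_cj, h.cj_one]

theorem cj_mul_mul (h : CA m o) (x y : A) : m (cj o x) (m x y) = (inner ℝ x x : ℝ) • y := by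
  refine ext_left fun z => ?_
  rw [h.adj_l, h.cj_cj, h.nm_l, inner_smul_left]
  rfl

theorem mul_cj_mul (h : CA m o) (x y : A) : m x (m (cj o x) y) = (inner ℝ x x : ℝ) • y := by
  have h1 := h.cj_mul_mul (cj o x) y
  rwa [h.cj_cj, h.inner_cj_cj] at h1

theorem mul_mul_cj (h : CA m o) (x y : A) : m (m y x) (cj o x) = (inner ℝ x x : ℝ) • y := by
  refine ext_left fun z => ?_
  rw [h.adj_r, h.cj_cj, h.nm_r, inner_smul_left, mul_comm]
  rfl

theorem mul_cj_mul_r (h : CA m o) (x y : A) : m (m y (cj o x)) x = (inner ℝ x x : ℝ) • y := by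
  have h1 := h.mul_mul_cj (cj o x) y
  rwa [h.cj_cj, h.inner_cj_cj] at h1

theorem cj_mul_self (h : CA m o) (x : A) : m (cj o x) x = (inner ℝ x x : ℝ) • o := by
  have h1 := h.cj_mul_mul x o
  rwa [h.mul_one] at h1

theorem mul_cj_self (h : CA m o) (x : A) : m x (cj o x) = (inner ℝ x x : ℝ) • o := by
  have h1 := h.mul_cj_mul x o
  rwa [h.mul_one] at h1

/-- conjugation reverses products -/
theorem cj_mul (h : CA m o) (x y : A) : cj o (m x y) = m (cj o y) (cj o x) := by
  refine ext_left fun z => ?_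
  rw [h.inner_cj, h.adj_l, h.adj_l (cj o y), h.cj_cj, real_inner_comm, h.adj_r, h.cj_cj,
    real_inner_comm, ← h.inner_cj_cj (m _ _)]

/-! ### linearised alternative laws -/

theorem alt_l (h : CA m o) (x y z : A) :
    m (cj o x) (m z y) + m (cj o z) (m x y) = (2 * inner ℝ x z : ℝ) • y := by
  have h1 := h.cj_mul_mul (x + z) y
  have h2 := h.cj_mul_mul x y
  have h3 := h.cj_mul_mul z y
  simp only [map_add, LinearMap.add_apply, inner_add_left, inner_add_right] at h1
  rw [real_inner_comm x z] at h1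
  linear_combination (norm := module) h1 - h2 - h3

theorem alt_l' (h : CA m o) (x y z : A) :
    m x (m (cj o z) y) + m z (m (cj o x) y) = (2 * inner ℝ x z : ℝ) • y := by
  have h1 := h.alt_l (cj o x) y (cj o z)
  rwa [h.cj_cj, h.cj_cj, h.inner_cj_cj] at h1

theorem alt_r (h : CA m o) (x y z : A) :
    m (m y x) (cj o z) + m (m y z) (cj o x) = (2 * inner ℝ x z : ℝ) • y := by
  have h1 := h.mul_mul_cj (x + z) y
  have h2 := h.mul_mul_cj x y
  have h3 := h.mul_mul_cj z y
  simp only [map_add, LinearMap.add_apply, inner_add_left, inner_add_right] at h1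
  rw [real_inner_comm x z] at h1
  linear_combination (norm := module) h1 - h2 - h3

theorem alt_r' (h : CA m o) (x y z : A) :
    m (m y (cj o x)) z + m (m y (cj o z)) x = (2 * inner ℝ x z : ℝ) • y := by
  have h1 := h.alt_r (cj o x) y (cj o z)
  rwa [h.cj_cj, h.cj_cj, h.inner_cj_cj] at h1

/-! ### Moufang identities -/

theorem mou1 (h : CA m o) (a x y : A) : m (m a x) (m y a) = m a (m (m x y) a) := by
  refine ext_left fun z => ?_
  have e1 := h.nm2 y a (m (cj o x) (cj o a)) z
  have e2 := h.nm2 (m x y) a (cj o a) z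
  rw [h.mul_cj_mul_r, inner_smul_right] at e1
  rw [h.cj_mul_self, inner_smul_right] at e2
  rw [h.adj_l a, h.adj_l (m a x), h.cj_mul]
  have e3 : (inner ℝ y (m (cj o x) (cj o a)) : ℝ) = inner ℝ (m x y) (cj o a) := (h.adj_l _ _ _).symm
  have e4 : (inner ℝ (m y z) (cj o x) : ℝ) = inner ℝ (m (m x y) z) o := by
    rw [h.adj_r, h.adj_r (m x y), h.one_mul, h.adj_l]
  rw [e3, e4] at e1
  linarith

theorem flex (h : CA m o) (a x : A) : m (m a x) a = m a (m x a) := by
  have h1 := h.mou1 a x o
  rwa [h.one_mul, h.mul_one] at h1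

theorem mou2 (h : CA m o) (a x y : A) : m a (m x (m a y)) = m (m a (m x a)) y := by
  refine ext_left fun z => ?_
  have e1 := h.nm2 x (m a y) (cj o a) z
  have e2 := h.nm2 x a (cj o a) (m z (cj o y))
  rw [h.cj_mul_mul, inner_smul_right] at e1
  rw [h.cj_mul_self, inner_smul_right] at e2
  have e3 : (inner ℝ a (m z (cj o y)) : ℝ) = inner ℝ (m a y) z := (h.adj_r _ _ _).symm
  have e4 : (inner ℝ (m x (m z (cj o y))) o : ℝ) = inner ℝ (m x z) y := by
    rw [h.adj_l, h.adj_r z, h.cj_cj, h.mul_one, h.adj_l]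
  rw [e3, e4] at e2
  rw [h.adj_l a, h.adj_r (m a (m x a)), h.adj_l a]
  linarith

theorem mou3 (h : CA m o) (a x y : A) : m (m (m x a) y) a = m x (m a (m y a)) := by
  have h1 := congrArg (cj o) (h.mou2 (cj o a) (cj o y) (cj o x))
  rw [h.cj_mul, h.cj_mul, h.cj_mul, h.cj_mul, h.cj_mul, h.cj_mul, h.cj_cj, h.cj_cj, h.cj_cj] at h1
  rw [h1, h.flex]

/-! ### doubling -/

theorem cj_of_perp {l : A} (hl : (inner ℝ o l : ℝ) = 0) : cj o l = -l := by
  rw [cj_apply, hl]
  module

theorem perp_comm (h : CA m o) {a l : A} (hl : (inner ℝ o l : ℝ) = 0)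
    (hal : (inner ℝ a l : ℝ) = 0) : m a l = m l (cj o a) := by
  have h1 := h.alt_l' a o l
  rw [hal, cj_of_perp hl, map_neg, LinearMap.neg_apply, map_neg, h.mul_one, h.mul_one] at h1
  linear_combination (norm := module) -h1

theorem perp_l (h : CA m o) {a l : A} (hl : (inner ℝ o l : ℝ) = 0)
    (hal : (inner ℝ a l : ℝ) = 0) (y : A) : m a (m l y) = m l (m (cj o a) y) := by
  have h1 := h.alt_l' a y l
  rw [hal, cj_of_perp hl, map_neg, LinearMap.neg_apply, map_neg] at h1
  linear_combination (norm := module) -h1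

theorem perp_r (h : CA m o) {a l : A} (hl : (inner ℝ o l : ℝ) = 0)
    (hal : (inner ℝ a l : ℝ) = 0) (y : A) : m (m y l) a = m (m y (cj o a)) l := by
  have h1 := h.alt_r' a y l
  rw [hal, cj_of_perp hl, map_neg, map_neg, LinearMap.neg_apply] at h1
  linear_combination (norm := module) -h1

theorem perp_sq (h : CA m o) {l : A} (hl : (inner ℝ o l : ℝ) = 0)
    (hll : (inner ℝ l l : ℝ) = 1) (y : A) : m l (m l y) = -y := by
  have h1 := h.cj_mul_mul l y
  rw [hll, cj_of_perp hl, map_neg, LinearMap.neg_apply, one_smul] at h1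
  linear_combination (norm := module) -h1

/-- first doubling identity -/
theorem dbl1 (h : CA m o) {a b l : A} (hl : (inner ℝ o l : ℝ) = 0) (hal : (inner ℝ a l : ℝ) = 0)
    (hbl : (inner ℝ b l : ℝ) = 0) (hab : (inner ℝ (m b a) l : ℝ) = 0) :
    m a (m b l) = m (m b a) l := by
  rw [h.perp_comm hl hbl, h.perp_l hl hal, h.perp_comm hl hab, h.cj_mul]

/-- second doubling identity -/
theorem dbl2 (h : CA m o) {a b l : A} (hl : (inner ℝ o l : ℝ) = 0)
    (hbl : (inner ℝ b l : ℝ) = 0) : m (m a l) b = m (m a (cj o b)) l :=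
  h.perp_r hl hbl a

/-- third doubling identity -/
theorem dbl3 (h : CA m o) {a b l : A} (hl : (inner ℝ o l : ℝ) = 0) (hll : (inner ℝ l l : ℝ) = 1)
    (hal : (inner ℝ a l : ℝ) = 0) (hab : (inner ℝ (m (cj o a) b) l : ℝ) = 0) :
    m (m a l) (m b l) = -m (cj o b) a := by
  rw [h.perp_comm hl hal, h.mou1, h.perp_comm hl hab, h.cj_mul, h.cj_cj, h.perp_sq hl hll]

/-- orthogonality of the double -/
theorem dbl_perp (h : CA m o) {a b l : A} (hab : (inner ℝ (m (cj o b) a) l : ℝ) = 0) :
    (inner ℝ a (m b l) : ℝ) = 0 := by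
  rw [real_inner_comm, h.adj_l, real_inner_comm, hab]

end CA

end Vale.Agent.P231.QO
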