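import Vale.Agent.P231.QO.Oct

/-! P231: every real composition algebra with unit of dimension eight is isometrically isomorphic to
the octonions, with a given imaginary unit. -/

set_option linter.unusedSectionVars false

open Module Quaternion

namespace Vale.Agent.P231.QO

noncomputable section

variable {A : Type*} [NormedAddCommGroup A] [InnerProductSpace ℝ A]

/-- a unit vector orthogonal to few vectors -/
theorem exists_unit_perp [FiniteDimensional ℝ A] (s : Finset A) (h : s.card < finrank ℝ A) :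
    ∃ v : A, (inner ℝ v v : ℝ) = 1 ∧ ∀ x ∈ s, (inner ℝ x v : ℝ) = 0 := by
  classical
  set K : Submodule ℝ A := Submodule.span ℝ (s : Set A) with hK
  have h1 : finrank ℝ K < finrank ℝ A := (finrank_span_finset_le_card s).trans_lt h
  have h2 : finrank ℝ K + finrank ℝ Kᗮ = finrank ℝ A := K.finrank_add_finrank_orthogonal
  have h3 : Nontrivial Kᗮ := Module.nontrivial_of_finrank_pos (R := ℝ) (by omega)
  obtain ⟨⟨w, hw⟩, hw0⟩ := exists_ne (0 : Kᗮ)
  have hw0' : w ≠ 0 := fun h => hw0 (Subtype.ext h)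
  have hn : ‖w‖ ≠ 0 := norm_ne_zero_iff.2 hw0'
  refine ⟨‖w‖⁻¹ • w, ?_, fun x hx => ?_⟩
  · rw [real_inner_self_eq_norm_sq, norm_smul, norm_inv, norm_norm, inv_mul_cancel₀ hn, one_pow]
  · rw [inner_smul_right, (Submodule.mem_orthogonal K w).1 hw x (Submodule.subset_span hx),
      mul_zero]

variable {m : A →ₗ[ℝ] A →ₗ[ℝ] A} {o : A}

/-- an adapted frame -/
structure HF (m : A →ₗ[ℝ] A →ₗ[ℝ] A) (o i j l : A) : Prop where
  ca : CA m o
  ii : (inner ℝ i i : ℝ) = 1
  jj : (inner ℝ j j : ℝ) = 1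
  ll : (inner ℝ l l : ℝ) = 1
  oi : (inner ℝ o i : ℝ) = 0
  oj : (inner ℝ o j : ℝ) = 0
  ij : (inner ℝ i j : ℝ) = 0
  ol : (inner ℝ o l : ℝ) = 0
  il : (inner ℝ i l : ℝ) = 0
  jl : (inner ℝ j l : ℝ) = 0
  kl : (inner ℝ (m i j) l : ℝ) = 0

variable {i j l : A}

namespace HF

theorem m_ii (h : HF m o i j l) (y : A) : m i (m i y) = -y := h.ca.perp_sq h.oi h.ii y

theorem m_jj (h : HF m o i j l) (y : A) : m j (m j y) = -y := h.ca.perp_sq h.oj h.jj y

theorem ii_o (h : HF m o i j l) : m i i = -o := by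
  have h1 := h.m_ii o
  rwa [h.ca.mul_one] at h1

theorem jj_o (h : HF m o i j l) : m j j = -o := by
  have h1 := h.m_jj o
  rwa [h.ca.mul_one] at h1

theorem ik (h : HF m o i j l) : m i (m i j) = -j := h.m_ii j

theorem anti (h : HF m o i j l) (y : A) : m i (m j y) = -m j (m i y) := by
  have h1 := h.ca.alt_l' i y j
  simp only [h.ij, CA.cj_of_perp h.oi, CA.cj_of_perp h.oj, map_neg, LinearMap.neg_apply] at h1
  linear_combination (norm := module) -h1

theorem ji (h : HF m o i j l) : m j i = -m i j := by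
  have h1 := h.anti o
  rw [h.ca.mul_one, h.ca.mul_one] at h1
  rw [h1, neg_neg]

theorem jk (h : HF m o i j l) : m j (m i j) = i := by
  have h1 := h.anti j
  rw [h.jj_o, map_neg, h.ca.mul_one] at h1
  exact (neg_injective h1).symm

theorem kj (h : HF m o i j l) : m (m i j) j = -i := by
  have h1 := h.ca.mul_mul_cj j i
  rw [CA.cj_of_perp h.oj, map_neg, h.jj, one_smul] at h1
  linear_combination (norm := module) -h1

theorem anti_r (h : HF m o i j l) (y : A) : m (m y j) i = -m (m y i) j := by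
  have h1 := h.ca.alt_r j y i
  rw [real_inner_comm, h.ij, CA.cj_of_perp h.oi, CA.cj_of_perp h.oj, map_neg, map_neg] at h1
  linear_combination (norm := module) -h1

theorem ki (h : HF m o i j l) : m (m i j) i = j := by
  rw [h.anti_r, h.ii_o, map_neg, LinearMap.neg_apply, h.ca.one_mul, neg_neg]

theorem ok (h : HF m o i j l) : (inner ℝ o (m i j) : ℝ) = 0 := by
  rw [real_inner_comm, h.ca.adj_l, CA.cj_of_perp h.oi, map_neg, LinearMap.neg_apply, h.ca.mul_one,
    inner_neg_right, real_inner_comm, h.ij, neg_zero]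

theorem kk (h : HF m o i j l) : (inner ℝ (m i j) (m i j) : ℝ) = 1 := by
  rw [h.ca.nm, h.ii, h.jj, one_mul]

theorem kk_o (h : HF m o i j l) : m (m i j) (m i j) = -o := by
  have h1 := h.ca.perp_sq h.ok h.kk o
  rwa [h.ca.mul_one] at h1

theorem inner_ik (h : HF m o i j l) : (inner ℝ i (m i j) : ℝ) = 0 := by
  have h1 := h.ca.nm_l i o j
  rw [h.ca.mul_one, h.oj, mul_zero] at h1
  exact h1

theorem inner_jk (h : HF m o i j l) : (inner ℝ j (m i j) : ℝ) = 0 := by
  have h1 := h.ca.nm_r o i j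
  rw [h.ca.one_mul, h.oi, zero_mul] at h1
  exact h1

end HF

/-- the embedding of the quaternions -/
def ph (m : A →ₗ[ℝ] A →ₗ[ℝ] A) (o i j : A) (q : Quaternion ℝ) : A :=
  q.re • o + q.imI • i + q.imJ • j + q.imK • m i j

theorem ph_add (p q : Quaternion ℝ) : ph m o i j (p + q) = ph m o i j p + ph m o i j q := by
  simp only [ph, Quaternion.re_add, Quaternion.imI_add, Quaternion.imJ_add, Quaternion.imK_add]
  module

theorem ph_smul (c : ℝ) (q : Quaternion ℝ) : ph m o i j (c • q) = c • ph m o i j q := by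
  simp only [ph, Quaternion.re_smul, Quaternion.imI_smul, Quaternion.imJ_smul,
    Quaternion.imK_smul, smul_eq_mul]
  module

theorem ph_sub (p q : Quaternion ℝ) : ph m o i j (p - q) = ph m o i j p - ph m o i j q := by
  simp only [ph, Quaternion.re_sub, Quaternion.imI_sub, Quaternion.imJ_sub, Quaternion.imK_sub]
  module

namespace HF

theorem ph_mul (h : HF m o i j l) (p q : Quaternion ℝ) :
    ph m o i j (p * q) = m (ph m o i j p) (ph m o i j q) := by
  simp only [ph, map_add, map_smul, LinearMap.add_apply, LinearMap.smul_apply, h.ca.one_mul,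
    h.ca.mul_one, h.ii_o, h.jj_o, h.kk_o, h.ji, h.ik, h.jk, h.ki, h.kj, Quaternion.re_mul,
    Quaternion.imI_mul, Quaternion.imJ_mul, Quaternion.imK_mul]
  module

theorem ph_star (h : HF m o i j l) (q : Quaternion ℝ) :
    cj o (ph m o i j q) = ph m o i j (star q) := by
  simp only [ph, map_add, map_smul, h.ca.cj_one, CA.cj_of_perp h.oi, CA.cj_of_perp h.oj,
    CA.cj_of_perp h.ok, Quaternion.re_star, Quaternion.imI_star, Quaternion.imJ_star,
    Quaternion.imK_star]
  module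

theorem ph_inner (h : HF m o i j l) (p q : Quaternion ℝ) :
    (inner ℝ (ph m o i j p) (ph m o i j q) : ℝ) = inner ℝ p q := by
  have e1 := h.ca.unit
  have e2 : (inner ℝ i o : ℝ) = 0 := by rw [real_inner_comm, h.oi]
  have e3 : (inner ℝ j o : ℝ) = 0 := by rw [real_inner_comm, h.oj]
  have e4 : (inner ℝ j i : ℝ) = 0 := by rw [real_inner_comm, h.ij]
  have e5 : (inner ℝ (m i j) o : ℝ) = 0 := by rw [real_inner_comm, h.ok]
  have e6 : (inner ℝ (m i j) i : ℝ) = 0 := by rw [real_inner_comm, h.inner_ik]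
  have e7 : (inner ℝ (m i j) j : ℝ) = 0 := by rw [real_inner_comm, h.inner_jk]
  simp only [ph, inner_add_left, inner_add_right, inner_smul_left, inner_smul_right, e1, e2, e3,
    e4, e5, e6, e7, h.oi, h.oj, h.ij, h.ok, h.inner_ik, h.inner_jk, h.ii, h.jj, h.kk,
    RCLike.conj_to_real, Quaternion.inner_def, Quaternion.re_mul, Quaternion.re_star,
    Quaternion.imI_star, Quaternion.imJ_star, Quaternion.imK_star]
  ring

theorem ph_l (h : HF m o i j l) (q : Quaternion ℝ) : (inner ℝ (ph m o i j q) l : ℝ) = 0 := by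
  simp only [ph, inner_add_left, inner_smul_left, h.ol, h.il, h.jl, h.kl, mul_zero, add_zero]

end HF

/-- the embedding of the octonions -/
def Ph (m : A →ₗ[ℝ] A →ₗ[ℝ] A) (o i j l : A) : Oc →ₗ[ℝ] A where
  toFun x := ph m o i j x.fst + m (ph m o i j x.snd) l
  map_add' x y := by
    have h1 : (x + y).fst = x.fst + y.fst := rfl
    have h2 : (x + y).snd = x.snd + y.snd := rfl
    rw [h1, h2, ph_add, ph_add, map_add, LinearMap.add_apply]
    abel
  map_smul' c x := by
    have h1 : (c • x).fst = c • x.fst := rfl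
    have h2 : (c • x).snd = c • x.snd := rfl
    rw [h1, h2, ph_smul, ph_smul, map_smul, LinearMap.smul_apply, RingHom.id_apply, smul_add]

theorem Ph_apply (x : Oc) : Ph m o i j l x = ph m o i j x.fst + m (ph m o i j x.snd) l := rfl

namespace HF

theorem Ph_mul (h : HF m o i j l) (x y : Oc) :
    Ph m o i j l (om x y) = m (Ph m o i j l x) (Ph m o i j l y) := by
  have h1 : (om x y).fst = x.fst * y.fst - star y.snd * x.snd := rfl
  have h2 : (om x y).snd = y.snd * x.fst + x.snd * star y.fst := rfl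
  have e1 := h.ca.dbl1 h.ol (h.ph_l x.fst) (h.ph_l y.snd)
    (by rw [← h.ph_mul]; exact h.ph_l _)
  have e2 := h.ca.dbl2 (a := ph m o i j x.snd) h.ol (h.ph_l y.fst)
  have e3 := h.ca.dbl3 (b := ph m o i j y.snd) h.ol h.ll (h.ph_l x.snd)
    (by rw [h.ph_star, ← h.ph_mul]; exact h.ph_l _)
  rw [h.ph_star] at e2 e3
  rw [Ph_apply, Ph_apply, Ph_apply, h1, h2, ph_sub, ph_add, h.ph_mul, h.ph_mul, h.ph_mul, h.ph_mul,
    map_add, map_add, map_add, LinearMap.add_apply, LinearMap.add_apply, LinearMap.add_apply, e1,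
    e2, e3]
  abel

theorem Ph_inner (h : HF m o i j l) (x y : Oc) :
    (inner ℝ (Ph m o i j l x) (Ph m o i j l y) : ℝ) = inner ℝ x y := by
  have e1 : ∀ a b : Quaternion ℝ, (inner ℝ (ph m o i j a) (m (ph m o i j b) l) : ℝ) = 0 :=
    fun a b => h.ca.dbl_perp (by rw [h.ph_star, ← h.ph_mul]; exact h.ph_l _)
  have e2 : ∀ a b : Quaternion ℝ, (inner ℝ (m (ph m o i j b) l) (ph m o i j a) : ℝ) = 0 :=
    fun a b => by rw [real_inner_comm, e1]
  rw [Ph_apply, Ph_apply, inner_add_left, inner_add_right, inner_add_right, e1, e2, h.ca.nm_r,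
    h.ll, h.ph_inner, h.ph_inner, inner_Oc]
  ring

/-- the isometric isomorphism -/
theorem exists_iso (h : HF m o i j l) [FiniteDimensional ℝ A] (hA : finrank ℝ A = 8) :
    ∃ Φ : Oc ≃ₗᵢ[ℝ] A, (∀ x y, Φ (om x y) = m (Φ x) (Φ y)) ∧
      ∀ x, Φ x = Ph m o i j l x := by
  let Φ' : Oc →ₗᵢ[ℝ] A := ⟨Ph m o i j l, fun x => by
    have h1 := h.Ph_inner x x
    rw [real_inner_self_eq_norm_sq, real_inner_self_eq_norm_sq] at h1
    exact (sq_eq_sq₀ (norm_nonneg _) (norm_nonneg _)).1 h1⟩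
  have hfin : finrank ℝ Oc = finrank ℝ A := by rw [hA, finrank_Oc]
  refine ⟨Φ'.toLinearIsometryEquiv hfin, fun x y => ?_, fun x => rfl⟩
  exact h.Ph_mul x y

end HF

/-- **Hurwitz's theorem in dimension eight** -/
theorem CA.exists_oct (h : CA m o) [FiniteDimensional ℝ A] (hA : finrank ℝ A = 8) {i : A}
    (hi : (inner ℝ i i : ℝ) = 1) (hoi : (inner ℝ o i : ℝ) = 0) :
    ∃ Φ : Oc ≃ₗᵢ[ℝ] A, (∀ x y, Φ (om x y) = m (Φ x) (Φ y)) ∧ Φ o1 = o ∧
      Φ (oc ⟨0, 1, 0, 0⟩ 0) = i := by
  classical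
  obtain ⟨j, hj, hj'⟩ := exists_unit_perp ({o, i} : Finset A)
    ((Finset.card_le_two).trans_lt (by rw [hA]; norm_num))
  obtain ⟨l, hl, hl'⟩ := exists_unit_perp ({o, i, j, m i j} : Finset A)
    ((Finset.card_le_four).trans_lt (by rw [hA]; norm_num))
  have hF : HF m o i j l := ⟨h, hi, hj, hl, hoi, hj' o (by simp), hj' i (by simp),
    hl' o (by simp), hl' i (by simp), hl' j (by simp), hl' _ (by simp)⟩
  obtain ⟨Φ, h1, h2⟩ := hF.exists_iso hA
  refine ⟨Φ, h1, ?_, ?_⟩
  · rw [h2]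
    show ph m o i j 1 + m (ph m o i j 0) l = o
    simp [ph]
  · rw [h2]
    show ph m o i j ⟨0, 1, 0, 0⟩ + m (ph m o i j 0) l = i
    simp [ph]

end

end Vale.Agent.P231.QO
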