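import Vale.Agent.P231.QO.TAlg
import Vale.Agent.P231.QO.Hur

/-! P231: octonionic coordinates, abstract form. -/

set_option maxSynthPendingDepth 3
set_option linter.unusedSectionVars false

open Module Set

namespace Vale.Agent.P231.QO

noncomputable section

variable {V : Type*} [NormedAddCommGroup V] [InnerProductSpace ℝ V]
  {T : V →ₗ[ℝ] V →ₗ[ℝ] V →ₗ[ℝ] V} {u₀ v₀ : V}

/-- the octonionic plane -/
abbrev OV := WithLp 2 (Oc × Oc)

/-- the vector with given components -/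
def ov (x y : Oc) : OV := WithLp.toLp 2 (x, y)

theorem inner_OV (z w : OV) : (inner ℝ z w : ℝ) = inner ℝ z.fst w.fst + inner ℝ z.snd w.snd := rfl

/-- the quadratic form of the line of `z` -/
def lin (z w : OV) : ℝ :=
  inner ℝ z.fst z.fst * inner ℝ w.fst w.fst + inner ℝ z.snd z.snd * inner ℝ w.snd w.snd +
    2 * inner ℝ (om (cj o1 z.fst) z.snd) (om (cj o1 w.fst) w.snd)

/-- the line of `u₀` -/
def fib (T : V →ₗ[ℝ] V →ₗ[ℝ] V →ₗ[ℝ] V) (u₀ : V) : Submodule ℝ V where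
  carrier := {b | T u₀ u₀ b = b}
  add_mem' {a b} ha hb := by
    have h1 : T u₀ u₀ a = a := ha
    have h2 : T u₀ u₀ b = b := hb
    show T u₀ u₀ (a + b) = a + b
    rw [map_add, h1, h2]
  zero_mem' := map_zero _
  smul_mem' c a ha := by
    have h1 : T u₀ u₀ a = a := ha
    show T u₀ u₀ (c • a) = c • a
    rw [map_smul, h1]

theorem mem_fib {b : V} : b ∈ fib T u₀ ↔ T u₀ u₀ b = b := Iff.rfl

/-- multiplicity seven, dimension sixteen -/
structure OT8 (T : V →ₗ[ℝ] V →ₗ[ℝ] V →ₗ[ℝ] V) (u₀ v₀ : V) : Prop where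
  ot : OT T
  uu : (inner ℝ u₀ u₀ : ℝ) = 1
  vv : (inner ℝ v₀ v₀ : ℝ) = 1
  uv : T u₀ u₀ v₀ = 0
  full : ∀ v, T u₀ u₀ v = 0 → ∀ w, T u₀ u₀ w = 0 → T v v w = (inner ℝ v v : ℝ) • w
  fin : finrank ℝ (fib T u₀) = 8
  finV : finrank ℝ V = 16

/-- the exchange of the two fibres -/
def XX (T : V →ₗ[ℝ] V →ₗ[ℝ] V →ₗ[ℝ] V) (u₀ v₀ : V) : V →ₗ[ℝ] V := (2 : ℝ) • T u₀ v₀

theorem XX_apply (w : V) : XX T u₀ v₀ w = (2 : ℝ) • T u₀ v₀ w := rfl

namespace OT8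

theorem uu' (h : OT8 T u₀ v₀) : T u₀ u₀ u₀ = u₀ := by rw [h.ot.self, h.uu, one_smul]

theorem vproj (h : OT8 T u₀ v₀) (w : V) : T v₀ v₀ w = w - T u₀ u₀ w := by
  have h1 : T v₀ v₀ (T u₀ u₀ w) = 0 := h.ot.mul_zero h.uv w
  have h2 : T u₀ u₀ (w - T u₀ u₀ w) = 0 := by
    rw [map_sub, h.ot.idem, h.uu, one_smul, sub_self]
  have h3 := h.full v₀ h.uv _ h2
  rw [h.vv, one_smul, map_sub, h1, sub_zero] at h3
  exact h3

theorem X_X (h : OT8 T u₀ v₀) (w : V) : XX T u₀ v₀ (XX T u₀ v₀ w) = w := by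
  have h1 := h.ot.XX h.uv w
  rw [h.uu, h.vv, one_smul, one_smul, h.vproj] at h1
  rw [XX_apply, XX_apply, map_smul, smul_smul]
  have h2 : (2 * 2 : ℝ) = 4 := by norm_num
  rw [h2, h1]
  abel

theorem X_symm (h : OT8 T u₀ v₀) (w w' : V) :
    (inner ℝ (XX T u₀ v₀ w) w' : ℝ) = inner ℝ w (XX T u₀ v₀ w') := by
  rw [XX_apply, XX_apply, inner_smul_left, inner_smul_right, h.ot.symm]
  rfl

theorem X_inner (h : OT8 T u₀ v₀) (w w' : V) :
    (inner ℝ (XX T u₀ v₀ w) (XX T u₀ v₀ w') : ℝ) = inner ℝ w w' := by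
  rw [h.X_symm, h.X_X]

theorem X_fib (h : OT8 T u₀ v₀) {b : V} (hb : T u₀ u₀ b = b) : T u₀ u₀ (XX T u₀ v₀ b) = 0 :=
  h.ot.rho_mem h.uu h.uv hb

theorem X_perp (h : OT8 T u₀ v₀) {w : V} (hw : T u₀ u₀ w = 0) :
    T u₀ u₀ (XX T u₀ v₀ w) = XX T u₀ v₀ w := by
  have h1 := h.ot.AX h.uv w
  rw [hw, map_zero, add_zero, h.uu, one_smul] at h1
  rw [XX_apply, map_smul, h1]

theorem X_u (h : OT8 T u₀ v₀) : XX T u₀ v₀ u₀ = v₀ := by
  rw [XX_apply, h.ot.Xu h.uv, h.uu, one_smul]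

theorem perp_fib (h : OT8 T u₀ v₀) {x y : V} (hx : T u₀ u₀ x = 0) (hy : T u₀ u₀ y = y) :
    (inner ℝ x y : ℝ) = 0 := by
  rw [← hy, ← h.ot.symm, hx, inner_zero_left]

theorem mul_mem (h : OT8 T u₀ v₀) {y z : V} (hy : T u₀ u₀ y = y) (hz : T u₀ u₀ z = z) :
    T u₀ u₀ (XX T u₀ v₀ (rho T u₀ y (XX T u₀ v₀ z))) =
      XX T u₀ v₀ (rho T u₀ y (XX T u₀ v₀ z)) :=
  h.X_perp (h.ot.rho_mem h.uu (h.X_fib hz) hy)

/-- the product on the line of `u₀` -/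
def mF (h : OT8 T u₀ v₀) : fib T u₀ →ₗ[ℝ] fib T u₀ →ₗ[ℝ] fib T u₀ :=
  LinearMap.mk₂ ℝ (fun y z => ⟨XX T u₀ v₀ (rho T u₀ (y : V) (XX T u₀ v₀ (z : V))),
      h.mul_mem y.2 z.2⟩)
    (fun y y' z => Subtype.ext (by
      simp only [Submodule.coe_add, map_add, LinearMap.add_apply]))
    (fun c y z => Subtype.ext (by
      simp only [Submodule.coe_smul, map_smul, LinearMap.smul_apply]))
    (fun y z z' => Subtype.ext (by
      simp only [Submodule.coe_add, map_add]))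
    (fun c y z => Subtype.ext (by
      simp only [Submodule.coe_smul, map_smul]))

theorem coe_mF (h : OT8 T u₀ v₀) (y z : fib T u₀) :
    ((h.mF y z : fib T u₀) : V) = XX T u₀ v₀ (rho T u₀ (y : V) (XX T u₀ v₀ (z : V))) := rfl

/-- the composition algebra -/
theorem ca (h : OT8 T u₀ v₀) : CA h.mF (⟨u₀, h.uu'⟩ : fib T u₀) where
  nm y z := by
    rw [Submodule.coe_inner, Submodule.coe_inner, Submodule.coe_inner, coe_mF, h.X_inner,
      h.ot.rho_inner (h.X_fib z.2) y.2, h.X_inner]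
  one_mul z := Subtype.ext (by
    rw [coe_mF, h.ot.rho_one h.uu (h.X_fib z.2), h.X_X])
  mul_one y := Subtype.ext (by
    have h1 : rho T u₀ (y : V) v₀ = XX T u₀ v₀ y := rfl
    rw [coe_mF, h.X_u, h1, h.X_X])
  unit := by
    rw [Submodule.coe_inner]
    exact h.uu

/-- **octonionic coordinates** -/
theorem exists_coord (h : OT8 T u₀ v₀) [FiniteDimensional ℝ V] {u₁ : V} (h1 : T u₀ u₀ u₁ = u₁)
    (h2 : (inner ℝ u₁ u₁ : ℝ) = 1) (h3 : (inner ℝ u₀ u₁ : ℝ) = 0) :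
    ∃ J : V ≃ₗᵢ[ℝ] OV, J u₀ = ov o1 0 ∧ J u₁ = ov (oc ⟨0, 1, 0, 0⟩ 0) 0 ∧ J v₀ = ov 0 o1 ∧
      ∀ u w, (inner ℝ (T u u w) w : ℝ) = lin (J u) (J w) := by
  obtain ⟨Φ, hΦ, hΦ1, hΦi⟩ := h.ca.exists_oct h.fin (i := ⟨u₁, h1⟩) h2 h3
  have hf : ∀ x : Oc, T u₀ u₀ (Φ x : V) = Φ x := fun x => (Φ x).2
  have hin : ∀ x y : Oc, (inner ℝ ((Φ x : fib T u₀) : V) (Φ y : V) : ℝ) = inner ℝ x y := by
    intro x y
    rw [← Submodule.coe_inner, Φ.inner_map_map]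
  let G : OV →ₗ[ℝ] V :=
    { toFun := fun z => (Φ z.fst : V) + XX T u₀ v₀ (Φ z.snd : V)
      map_add' := fun z w => by
        have e1 : (z + w).fst = z.fst + w.fst := rfl
        have e2 : (z + w).snd = z.snd + w.snd := rfl
        rw [e1, e2, map_add, map_add, Submodule.coe_add, Submodule.coe_add, map_add]
        abel
      map_smul' := fun c z => by
        have e1 : (c • z).fst = c • z.fst := rfl
        have e2 : (c • z).snd = c • z.snd := rfl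
        rw [e1, e2, map_smul, map_smul, Submodule.coe_smul, Submodule.coe_smul, map_smul,
          RingHom.id_apply, smul_add] }
  have hG : ∀ z : OV, G z = (Φ z.fst : V) + XX T u₀ v₀ (Φ z.snd : V) := fun z => rfl
  have hGi : ∀ z w : OV, (inner ℝ (G z) (G w) : ℝ) = inner ℝ z w := by
    intro z w
    have e1 := h.perp_fib (h.X_fib (hf z.snd)) (hf w.fst)
    have e2 := h.perp_fib (h.X_fib (hf w.snd)) (hf z.fst)
    rw [real_inner_comm] at e2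
    rw [hG, hG, inner_add_left, inner_add_right, inner_add_right, h.X_inner, hin, hin, e1, e2,
      inner_OV]
    ring
  let G' : OV →ₗᵢ[ℝ] V := ⟨G, fun z => by
    have e1 := hGi z z
    rw [real_inner_self_eq_norm_sq, real_inner_self_eq_norm_sq] at e1
    exact (sq_eq_sq₀ (norm_nonneg _) (norm_nonneg _)).1 e1⟩
  have hdim : finrank ℝ OV = finrank ℝ V := by
    rw [h.finV, (WithLp.linearEquiv 2 ℝ (Oc × Oc)).finrank_eq, finrank_prod, finrank_Oc]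
  let J := (G'.toLinearIsometryEquiv hdim).symm
  have hJ : ∀ z, J (G z) = z := fun z => (G'.toLinearIsometryEquiv hdim).symm_apply_apply z
  have hJ' : ∀ v, G (J v) = v := fun v => (G'.toLinearIsometryEquiv hdim).apply_symm_apply v
  refine ⟨J, ?_, ?_, ?_, fun u w => ?_⟩
  · have e1 : G (ov o1 0) = u₀ := by
      rw [hG]
      show ((Φ o1 : fib T u₀) : V) + XX T u₀ v₀ ((Φ 0 : fib T u₀) : V) = u₀
      rw [hΦ1, map_zero, Submodule.coe_zero, map_zero, add_zero]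
    rw [← e1, hJ]
  · have e1 : G (ov (oc ⟨0, 1, 0, 0⟩ 0) 0) = u₁ := by
      rw [hG]
      show ((Φ (oc ⟨0, 1, 0, 0⟩ 0) : fib T u₀) : V) + XX T u₀ v₀ ((Φ 0 : fib T u₀) : V) = u₁
      rw [hΦi, map_zero, Submodule.coe_zero, map_zero, add_zero]
    rw [← e1, hJ]
  · have e1 : G (ov 0 o1) = v₀ := by
      rw [hG]
      show ((Φ 0 : fib T u₀) : V) + XX T u₀ v₀ ((Φ o1 : fib T u₀) : V) = v₀
      rw [hΦ1, map_zero, Submodule.coe_zero, zero_add]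
      exact h.X_u
    rw [← e1, hJ]
  · obtain ⟨z, rfl⟩ : ∃ z, u = G z := ⟨J u, (hJ' u).symm⟩
    obtain ⟨z', rfl⟩ : ∃ z', w = G z' := ⟨J w, (hJ' w).symm⟩
    have e0 := h.ot.form h.uu h.full (hf z.fst) (hf z'.fst) (h.X_fib (hf z.snd))
      (h.X_fib (hf z'.snd))
    rw [hJ, hJ, hG, hG, e0, hin, hin, h.X_inner, h.X_inner, hin, hin, lin]
    congr 2
    have e1 : (2 * inner ℝ u₀ (Φ z.fst : V) : ℝ) • u₀ - (Φ z.fst : V) =
        ((Φ (cj o1 z.fst) : fib T u₀) : V) := by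
      have e2 : (inner ℝ u₀ (Φ z.fst : V) : ℝ) = inner ℝ o1 z.fst := by
        rw [← hin, hΦ1]
      rw [cj_apply, map_sub, map_smul, hΦ1, e2]
      rfl
    rw [e1, ← h.X_symm]
    have e3 : XX T u₀ v₀ (rho T u₀ (Φ z'.fst : V) (rho T u₀ ((Φ (cj o1 z.fst) : fib T u₀) : V)
        (XX T u₀ v₀ (Φ z.snd : V)))) = ((Φ (om z'.fst (om (cj o1 z.fst) z.snd)) : fib T u₀) : V) := by
      rw [hΦ, hΦ, h.coe_mF, h.coe_mF, h.X_X]
    rw [e3, hin, om_CA.adj_l]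

end OT8

end

end Vale.Agent.P231.QO
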