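import Mathlib

/-! P231: the octonionic projective plane. -/

namespace Vale.Agent.P231.CayleyPlane

/-- The octonions, as pairs of quaternions (Cayley-Dickson construction). -/
abbrev Octonion := Quaternion ℝ × Quaternion ℝ

/-- The product of octonions: `(a, b) (c, d) = (a c - d* b, d a + b c*)`. -/
noncomputable def omul (x y : Octonion) : Octonion :=
  (x.1 * y.1 - star y.2 * x.2, y.2 * x.1 + x.2 * star y.1)

/-- The conjugate of an octonion: `(a, b)* = (a*, -b)`. -/
noncomputable def oconj (x : Octonion) : Octonion := (star x.1, -x.2)

/-- The points of the octonionic projective plane: the octonionic `3 × 3` matrices which are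
Hermitian, idempotent and of trace one. -/
def IsPoint (A : Fin 3 → Fin 3 → Octonion) : Prop :=
  (∀ i j, A j i = oconj (A i j)) ∧ (∀ i j, ∑ k, omul (A i k) (A k j) = A i j) ∧
    ∑ i, A i i = (1, 0)

/-- The real part of the trace of the product of two octonionic `3 × 3` matrices. -/
noncomputable def traceMul (A B : Fin 3 → Fin 3 → Octonion) : ℝ :=
  ∑ i, ∑ j, (omul (A i j) (B j i)).1.re

end Vale.Agent.P231.CayleyPlane
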