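import Mathlib

/-! P231: adapted frames, polarization. -/

set_option linter.unusedSectionVars false

open Module Set

namespace Vale.Agent.P231.QO

noncomputable section

variable {V : Type*} [NormedAddCommGroup V] [InnerProductSpace ℝ V]

/-- symmetric additive maps are determined by their quadratic forms -/
theorem polar {G H : V → V} (hG : ∀ x y, G (x + y) = G x + G y)
    (hGs : ∀ x y, (inner ℝ (G x) y : ℝ) = inner ℝ x (G y))
    (hH : ∀ x y, H (x + y) = H x + H y)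
    (hHs : ∀ x y, (inner ℝ (H x) y : ℝ) = inner ℝ x (H y))
    (h : ∀ x, (inner ℝ (G x) x : ℝ) = inner ℝ (H x) x) (x : V) : G x = H x := by
  refine ext_inner_right ℝ fun y => ?_
  have h1 := h (x + y)
  have h2 := h x
  have h3 := h y
  have h4 : (inner ℝ (G y) x : ℝ) = inner ℝ (G x) y := by rw [hGs, real_inner_comm]
  have h5 : (inner ℝ (H y) x : ℝ) = inner ℝ (H x) y := by rw [hHs, real_inner_comm]
  rw [hG, hH, inner_add_left, inner_add_right, inner_add_right, inner_add_left, inner_add_right,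
    inner_add_right, h4, h5] at h1
  linarith

/-- normalization in a nonzero subspace -/
theorem exists_nrm {K : Submodule ℝ V} [FiniteDimensional ℝ K] (hK : 0 < finrank ℝ K) {x : V}
    (hx : x ∈ K) : ∃ u ∈ K, ‖u‖ = 1 ∧ ∃ a : ℝ, x = a • u := by
  have aux : ∀ y ∈ K, y ≠ 0 → ∃ u ∈ K, ‖u‖ = 1 ∧ ∃ a : ℝ, y = a • u := by
    intro y hy hy0
    have hn : ‖y‖ ≠ 0 := norm_ne_zero_iff.2 hy0
    refine ⟨‖y‖⁻¹ • y, K.smul_mem _ hy, ?_, ‖y‖, ?_⟩
    · rw [norm_smul, norm_inv, norm_norm, inv_mul_cancel₀ hn]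
    · rw [smul_smul, mul_inv_cancel₀ hn, one_smul]
  rcases eq_or_ne x 0 with h | h
  · have h3 : Nontrivial K := Module.nontrivial_of_finrank_pos (R := ℝ) hK
    obtain ⟨⟨w, hw⟩, hw0⟩ := exists_ne (0 : K)
    obtain ⟨u, hu, hu1, -⟩ := aux w hw fun h => hw0 (Subtype.ext h)
    exact ⟨u, hu, hu1, 0, by rw [h, zero_smul]⟩
  · exact aux x hx h

/-- **adapted frames** -/
theorem exists_frame [FiniteDimensional ℝ V] {n k : ℕ} (hV : finrank ℝ V = n)
    (hk : 0 < k) (hn : k + 1 < n) {Q : V → V →ₗ[ℝ] V}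
    (hid : ∀ u, ‖u‖ = 1 → ∀ w, Q u (Q u w) = Q u w)
    (hsy : ∀ u, ‖u‖ = 1 → ∀ w w', (inner ℝ (Q u w) w' : ℝ) = inner ℝ w (Q u w'))
    (hpe : ∀ u, ‖u‖ = 1 → ∀ w, (inner ℝ (Q u w) u : ℝ) = 0)
    (hrk : ∀ u, ‖u‖ = 1 → finrank ℝ (LinearMap.range (Q u)) = k) (v w : V) :
    ∃ u u₁ u₂ : V, (‖u‖ = 1 ∧ ‖u₁‖ = 1 ∧ ‖u₂‖ = 1) ∧
      ((inner ℝ u u₁ : ℝ) = 0 ∧ Q u u₁ = u₁ ∧ (inner ℝ u u₂ : ℝ) = 0 ∧ Q u u₂ = 0) ∧
      ∃ a b₀ b₁ b₂ : ℝ, v = a • u ∧ w = b₀ • u + b₁ • u₁ + b₂ • u₂ := by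
  obtain ⟨u, -, hu, a, ha⟩ := exists_nrm (K := (⊤ : Submodule ℝ V))
    (by rw [finrank_top]; omega) (x := v) Submodule.mem_top
  obtain ⟨u₁, ⟨y, hy⟩, hu₁, b₁, hb₁⟩ := exists_nrm (K := LinearMap.range (Q u))
    (by rw [hrk u hu]; exact hk) (x := Q u w) ⟨w, rfl⟩
  have h1 : Q u u₁ = u₁ := by rw [← hy, hid u hu]
  have h2 : (inner ℝ u u₁ : ℝ) = 0 := by rw [← h1, real_inner_comm, hpe u hu]
  set K : Submodule ℝ V := Submodule.span ℝ {u} ⊔ LinearMap.range (Q u) with hK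
  have hmem : ∀ x, x ∈ Kᗮ ↔ (inner ℝ u x : ℝ) = 0 ∧ Q u x = 0 := by
    intro x
    rw [Submodule.mem_orthogonal]
    constructor
    · intro h
      refine ⟨h u (Submodule.mem_sup_left (Submodule.mem_span_singleton_self u)), ?_⟩
      have h3 := h (Q u (Q u x)) (Submodule.mem_sup_right ⟨_, rfl⟩)
      rw [hsy u hu] at h3
      exact inner_self_eq_zero.1 h3
    · rintro ⟨h3, h4⟩ z hz
      obtain ⟨z₁, hz₁, z₂, ⟨z₃, rfl⟩, rfl⟩ := Submodule.mem_sup.1 hz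
      obtain ⟨c, rfl⟩ := Submodule.mem_span_singleton.1 hz₁
      rw [inner_add_left, real_inner_smul_left, h3, hsy u hu, h4, inner_zero_right, mul_zero,
        add_zero]
  have hfin : 0 < finrank ℝ Kᗮ := by
    have h3 := K.finrank_add_finrank_orthogonal
    have h4 : finrank ℝ K ≤ 1 + k := by
      refine (Submodule.finrank_add_le_finrank_add_finrank _ _).trans ?_
      refine add_le_add ?_ (hrk u hu).le
      have hu0 : u ≠ 0 := fun h => by
        rw [h, norm_zero] at hu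
        exact zero_ne_one hu
      exact (finrank_span_singleton hu0).le
    omega
  obtain ⟨u₂, hu₂K, hu₂, b₂, hb₂⟩ := exists_nrm (K := Kᗮ) hfin
    (x := w - (inner ℝ u w : ℝ) • u - Q u w) (by
      rw [hmem]
      have e0 : (inner ℝ u (Q u w) : ℝ) = 0 := by rw [real_inner_comm, hpe u hu]
      have e1 : Q u u = 0 := by
        have e2 : (inner ℝ (Q u u) (Q u u) : ℝ) = 0 := by rw [← hsy u hu, hid u hu, hpe u hu]
        exact inner_self_eq_zero.1 e2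
      constructor
      · rw [inner_sub_right, inner_sub_right, real_inner_smul_right, real_inner_self_eq_norm_sq,
          hu, e0]
        ring
      · rw [map_sub, map_sub, map_smul, e1, hid u hu, smul_zero, sub_zero, sub_self])
  obtain ⟨h3, h4⟩ := (hmem u₂).1 hu₂K
  refine ⟨u, u₁, u₂, ⟨hu, hu₁, hu₂⟩, ⟨h2, h1, h3, h4⟩, a, inner ℝ u w, b₁, b₂, ha, ?_⟩
  rw [← hb₁, ← hb₂]
  abel

end

end Vale.Agent.P231.QO
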