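import Vale.Agent.P231.QO.S10
import Vale.Agent.P231.QO.Brd
import Vale.Agent.P231.H512.Main

/-! P231: a Blaschke manifold with cut multiplicity seven and dimension sixteen is isometric to the
octonionic projective plane, from the volume inequality. -/

set_option maxSynthPendingDepth 3
set_option linter.unusedSectionVars false

open Bundle Manifold Set Filter Module MeasureTheory
open scoped ContDiff Manifold Topology ENNReal

namespace Vale.Agent.P231.QO

noncomputable section

open Vale.Agent.P234 Vale.Agent.P231 Vale.Agent.P231.H703 Vale.Agent.P231.H512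

variable {E : Type*} [NormedAddCommGroup E] [NormedSpace ℝ E]
  {M : Type*} [MetricSpace M] [ChartedSpace E M]
  [RiemannianBundle (fun x : M => TangentSpace 𝓘(ℝ, E) x)]
  {e : ∀ x : M, TangentSpace 𝓘(ℝ, E) x → M}
  [FiniteDimensional ℝ E] [IsManifold 𝓘(ℝ, E) ∞ M]
  [IsContMDiffRiemannianBundle 𝓘(ℝ, E) ∞ E (fun x : M => TangentSpace 𝓘(ℝ, E) x)]
  [CompactSpace M] [ConnectedSpace M] [IsRiemannianManifold 𝓘(ℝ, E) M]

theorem rig_seven_of (he : IsExp e) (hinj : Blaschke.InjGeDiam e) (hdim : finrank ℝ E = 16)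
    (hl : IsLeast {k | Blaschke.MultLE e k} 7)
    (hV : ∀ [MeasurableSpace M] [BorelSpace M] (_ : Facts e) {D : ℝ} (_ : 0 < D)
      (_ : InjGE e D) (_ : ∀ p q : M, dist p q ≤ D)
      (_ : ∀ x y : M, dist x y = D → finrank ℝ (H775.Pl e D x y) = 2 * 3 + 2),
      Blaschke.riemannianVolume (15 + 1) M univ ≤
        ENNReal.ofReal (Blaschke.modelVolume 15 7 D)) :
    Rig e (Metric.diam (univ : Set M)) 7 := by
  borelize M
  have hN : finrank ℝ E = 15 + 1 := hdim
  have F : Facts e := facts_of_isExp he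
  obtain ⟨x₀⟩ : Nonempty M := inferInstance
  have hD : 0 < Metric.diam (univ : Set M) := diam_pos he hN x₀
  have hB : InjGE e (Metric.diam (univ : Set M)) := injGE_of_injOn F hD hinj
  have hd : ∀ x y : M, dist x y ≤ Metric.diam (univ : Set M) := fun x y =>
    Metric.dist_le_diam_of_mem (isCompact_univ.isBounded) (mem_univ x) (mem_univ y)
  obtain ⟨-, h2, hP⟩ := mult_of_isLeast he F hD hB hd rfl hN hl
  exact rig_of_volume he hinj hN hl (hV F hD hB hd hP)

theorem main_op_of (he : IsExp e) (hinj : Blaschke.InjGeDiam e) (hdim : finrank ℝ E = 16)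
    (hl : IsLeast {k | Blaschke.MultLE e k} 7)
    (hV : ∀ [MeasurableSpace M] [BorelSpace M] (_ : Facts e) {D : ℝ} (_ : 0 < D)
      (_ : InjGE e D) (_ : ∀ p q : M, dist p q ≤ D)
      (_ : ∀ x y : M, dist x y = D → finrank ℝ (H775.Pl e D x y) = 2 * 3 + 2),
      Blaschke.riemannianVolume (15 + 1) M univ ≤
        ENNReal.ofReal (Blaschke.modelVolume 15 7 D)) :
    ∃ Z : M → Fin 3 → Fin 3 → Oc, (∀ x, IsCayley (Z x)) ∧
      (∀ x y, dist x y = 2 * Metric.diam (univ : Set M) / Real.pi *
        Real.arccos √(∑ i, ∑ j, (inner ℝ (Z x i j) (Z y i j) : ℝ))) ∧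
      ∀ A, IsCayley A → ∃ x, Z x = A := by
  obtain ⟨p⟩ : Nonempty M := inferInstance
  exact isometric_of_rig (rig_seven_of he hinj hdim hl hV) hdim p

open CayleyPlane in
/-- the isometry with the octonionic projective plane, from the volume inequality -/
theorem main_plane_of (he : IsExp e) (hinj : Blaschke.InjGeDiam e) (hdim : finrank ℝ E = 16)
    (hl : IsLeast {k | Blaschke.MultLE e k} 7)
    (hV : ∀ [MeasurableSpace M] [BorelSpace M] (_ : Facts e) {D : ℝ} (_ : 0 < D)
      (_ : InjGE e D) (_ : ∀ p q : M, dist p q ≤ D)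
      (_ : ∀ x y : M, dist x y = D → finrank ℝ (H775.Pl e D x y) = 2 * 3 + 2),
      Blaschke.riemannianVolume (15 + 1) M univ ≤
        ENNReal.ofReal (Blaschke.modelVolume 15 7 D)) :
    ∃ Z : M → Fin 3 → Fin 3 → Octonion, (∀ x, IsPoint (Z x)) ∧
      (∀ x y, dist x y = 2 * Metric.diam (univ : Set M) / Real.pi *
        Real.arccos √(traceMul (Z x) (Z y))) ∧
      ∀ A, IsPoint A → ∃ x, Z x = A :=
  exists_pair (f := dist)
    (g := fun t => 2 * Metric.diam (univ : Set M) / Real.pi * Real.arccos √t)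
    (main_op_of he hinj hdim hl hV)

end

end Vale.Agent.P231.QO
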