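import Vale.Agent.P231.QO.Comp

/-! P231: the octonions as pairs of quaternions. -/

set_option linter.unusedSectionVars false

open Module Quaternion

namespace Vale.Agent.P231.QO

noncomputable section

/-- the octonions as pairs of quaternions, with the Euclidean inner product -/
abbrev Oc := WithLp 2 (Quaternion ℝ × Quaternion ℝ)

/-- the octonion with given components -/
def oc (a b : Quaternion ℝ) : Oc := WithLp.toLp 2 (a, b)

theorem oc_fst (a b : Quaternion ℝ) : (oc a b).fst = a := rfl

theorem oc_snd (a b : Quaternion ℝ) : (oc a b).snd = b := rfl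

theorem oc_eta (x : Oc) : oc x.fst x.snd = x := rfl

theorem oc_ext {x y : Oc} (h1 : x.fst = y.fst) (h2 : x.snd = y.snd) : x = y := by
  rw [← oc_eta x, ← oc_eta y, h1, h2]

/-- the product of octonions: `(a, b) (c, d) = (a c - d* b, d a + b c*)` -/
def ocm (x y : Oc) : Oc :=
  oc (x.fst * y.fst - star y.snd * x.snd) (y.snd * x.fst + x.snd * star y.fst)

/-- the product of octonions as a bilinear map -/
def om : Oc →ₗ[ℝ] Oc →ₗ[ℝ] Oc :=
  LinearMap.mk₂ ℝ ocm
    (fun x y z => by
      refine oc_ext ?_ ?_
      · show (x.fst + y.fst) * z.fst - star z.snd * (x.snd + y.snd) =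
          (x.fst * z.fst - star z.snd * x.snd) + (y.fst * z.fst - star z.snd * y.snd)
        rw [add_mul, mul_add]
        abel
      · show z.snd * (x.fst + y.fst) + (x.snd + y.snd) * star z.fst =
          (z.snd * x.fst + x.snd * star z.fst) + (z.snd * y.fst + y.snd * star z.fst)
        rw [add_mul, mul_add]
        abel)
    (fun c x y => by
      refine oc_ext ?_ ?_
      · show (c • x.fst) * y.fst - star y.snd * (c • x.snd) =
          c • (x.fst * y.fst - star y.snd * x.snd)
        rw [smul_mul_assoc, mul_smul_comm, smul_sub]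
      · show y.snd * (c • x.fst) + (c • x.snd) * star y.fst =
          c • (y.snd * x.fst + x.snd * star y.fst)
        rw [smul_mul_assoc, mul_smul_comm, smul_add])
    (fun x y z => by
      refine oc_ext ?_ ?_
      · show x.fst * (y.fst + z.fst) - star (y.snd + z.snd) * x.snd =
          (x.fst * y.fst - star y.snd * x.snd) + (x.fst * z.fst - star z.snd * x.snd)
        rw [star_add, add_mul, mul_add]
        abel
      · show (y.snd + z.snd) * x.fst + x.snd * star (y.fst + z.fst) =
          (y.snd * x.fst + x.snd * star y.fst) + (z.snd * x.fst + x.snd * star z.fst)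
        rw [star_add, add_mul, mul_add]
        abel)
    (fun c x y => by
      refine oc_ext ?_ ?_
      · show x.fst * (c • y.fst) - star (c • y.snd) * x.snd =
          c • (x.fst * y.fst - star y.snd * x.snd)
        rw [Quaternion.star_smul, smul_mul_assoc, mul_smul_comm, smul_sub]
      · show (c • y.snd) * x.fst + x.snd * star (c • y.fst) =
          c • (y.snd * x.fst + x.snd * star y.fst)
        rw [Quaternion.star_smul, smul_mul_assoc, mul_smul_comm, smul_add])

theorem om_apply (x y : Oc) : om x y = ocm x y := rfl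

theorem om_oc (a b c d : Quaternion ℝ) :
    om (oc a b) (oc c d) = oc (a * c - star d * b) (d * a + b * star c) := rfl

theorem inner_Oc (x y : Oc) :
    (inner ℝ x y : ℝ) = inner ℝ x.fst y.fst + inner ℝ x.snd y.snd := rfl

/-- the unit -/
def o1 : Oc := oc 1 0

/-- the octonions are a composition algebra -/
theorem om_CA : CA om o1 where
  nm x y := by
    rw [inner_Oc, inner_Oc, inner_Oc]
    have h1 : (om x y).fst = x.fst * y.fst - star y.snd * x.snd := rfl
    have h2 : (om x y).snd = y.snd * x.fst + x.snd * star y.fst := rfl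
    rw [h1, h2]
    simp only [Quaternion.inner_def, Quaternion.re_mul, Quaternion.imI_mul, Quaternion.imJ_mul,
      Quaternion.imK_mul, Quaternion.re_star, Quaternion.imI_star, Quaternion.imJ_star,
      Quaternion.imK_star, Quaternion.re_sub, Quaternion.imI_sub, Quaternion.imJ_sub,
      Quaternion.imK_sub, Quaternion.re_add, Quaternion.imI_add, Quaternion.imJ_add,
      Quaternion.imK_add]
    ring
  one_mul x := by
    refine oc_ext ?_ ?_
    · show 1 * x.fst - star x.snd * 0 = x.fst
      rw [one_mul, mul_zero, sub_zero]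
    · show x.snd * 1 + 0 * star x.fst = x.snd
      rw [mul_one, zero_mul, add_zero]
  mul_one x := by
    refine oc_ext ?_ ?_
    · show x.fst * 1 - star 0 * x.snd = x.fst
      rw [mul_one, star_zero, zero_mul, sub_zero]
    · show 0 * x.fst + x.snd * star 1 = x.snd
      rw [zero_mul, star_one, mul_one, zero_add]
  unit := by
    rw [inner_Oc]
    show (inner ℝ (1 : Quaternion ℝ) 1 : ℝ) + inner ℝ (0 : Quaternion ℝ) 0 = 1
    rw [inner_zero_left, add_zero, real_inner_self_eq_norm_sq, norm_one, one_pow]

/-- the conjugate -/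
def ocj (x : Oc) : Oc := oc (star x.fst) (-x.snd)

theorem cj_eq (x : Oc) : cj o1 x = ocj x := by
  rw [cj_apply, inner_Oc]
  have h1 : (inner ℝ (o1.fst) x.fst : ℝ) = x.fst.re := by
    show (inner ℝ (1 : Quaternion ℝ) x.fst : ℝ) = x.fst.re
    rw [Quaternion.inner_def]
    simp
  have h2 : (inner ℝ (o1.snd) x.snd : ℝ) = 0 := inner_zero_left _
  rw [h1, h2]
  refine oc_ext ?_ ?_
  · show (2 * (x.fst.re + 0)) • (1 : Quaternion ℝ) - x.fst = star x.fst
    rw [Quaternion.star_eq_two_re_sub, add_zero]
    congr 1
    ext <;> simp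
  · show (2 * (x.fst.re + 0)) • (0 : Quaternion ℝ) - x.snd = -x.snd
    rw [smul_zero, zero_sub]

theorem finrank_Oc : finrank ℝ Oc = 8 := by
  have h1 : finrank ℝ Oc = finrank ℝ (Quaternion ℝ × Quaternion ℝ) :=
    (WithLp.linearEquiv 2 ℝ (Quaternion ℝ × Quaternion ℝ)).finrank_eq
  rw [h1, finrank_prod, Quaternion.finrank_eq_four]

end

end Vale.Agent.P231.QO
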