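import Vale.Agent.P231.QO.Crd
import Vale.Agent.P231.QF.QF1

/-! P231: the octonionic lines, the quaternionic part of the octonionic plane. -/

set_option linter.unusedSectionVars false

open Module Set Quaternion

namespace Vale.Agent.P231.QO

noncomputable section

open Vale.Agent.P231.QF

theorem ov_fst (x y : Oc) : (ov x y).fst = x := rfl

theorem ov_snd (x y : Oc) : (ov x y).snd = y := rfl

theorem ov_ext {z w : OV} (h1 : z.fst = w.fst) (h2 : z.snd = w.snd) : z = w := by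
  have e1 : z = ov z.fst z.snd := rfl
  have e2 : w = ov w.fst w.snd := rfl
  rw [e1, e2, h1, h2]

/-- the conjugation -/
theorem ocj_ocj (x : Oc) : ocj (ocj x) = x := by
  rw [← cj_eq, ← cj_eq, om_CA.cj_cj]

theorem ocj_add (x y : Oc) : ocj (x + y) = ocj x + ocj y := by
  rw [← cj_eq, ← cj_eq, ← cj_eq, map_add]

theorem ocj_smul (c : ℝ) (x : Oc) : ocj (c • x) = c • ocj x := by
  rw [← cj_eq, ← cj_eq, map_smul]

theorem ocj_om (x y : Oc) : ocj (om x y) = om (ocj y) (ocj x) := by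
  rw [← cj_eq, ← cj_eq, ← cj_eq, om_CA.cj_mul]

theorem inner_ocj_ocj (x y : Oc) : (inner ℝ (ocj x) (ocj y) : ℝ) = inner ℝ x y := by
  rw [← cj_eq, ← cj_eq, om_CA.inner_cj_cj]

theorem inner_om_l (x y z : Oc) : (inner ℝ (om x y) z : ℝ) = inner ℝ y (om (ocj x) z) := by
  rw [om_CA.adj_l, ← cj_eq]

theorem inner_om_r (x y z : Oc) : (inner ℝ (om x y) z : ℝ) = inner ℝ x (om z (ocj y)) := by
  rw [om_CA.adj_r, ← cj_eq]

/-- the projection to the octonionic line of `a` (for a unit vector `a`) -/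
def prj (a w : OV) : OV :=
  ov ((inner ℝ a.fst a.fst : ℝ) • w.fst + om (om a.fst (ocj a.snd)) w.snd)
    (om (om a.snd (ocj a.fst)) w.fst + (inner ℝ a.snd a.snd : ℝ) • w.snd)

/-- its quadratic form -/
def lin' (a w : OV) : ℝ :=
  inner ℝ a.fst a.fst * inner ℝ w.fst w.fst + inner ℝ a.snd a.snd * inner ℝ w.snd w.snd +
    2 * inner ℝ (om a.fst (ocj a.snd)) (om w.fst (ocj w.snd))

theorem prj_add (a w w' : OV) : prj a (w + w') = prj a w + prj a w' := by
  refine ov_ext ?_ ?_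
  · show (inner ℝ a.fst a.fst : ℝ) • (w.fst + w'.fst) +
      om (om a.fst (ocj a.snd)) (w.snd + w'.snd) =
      ((inner ℝ a.fst a.fst : ℝ) • w.fst + om (om a.fst (ocj a.snd)) w.snd) +
      ((inner ℝ a.fst a.fst : ℝ) • w'.fst + om (om a.fst (ocj a.snd)) w'.snd)
    rw [smul_add, map_add]
    abel
  · show om (om a.snd (ocj a.fst)) (w.fst + w'.fst) +
      (inner ℝ a.snd a.snd : ℝ) • (w.snd + w'.snd) =
      (om (om a.snd (ocj a.fst)) w.fst + (inner ℝ a.snd a.snd : ℝ) • w.snd) +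
      (om (om a.snd (ocj a.fst)) w'.fst + (inner ℝ a.snd a.snd : ℝ) • w'.snd)
    rw [smul_add, map_add]
    abel

theorem inner_prj_symm (a w w' : OV) : (inner ℝ (prj a w) w' : ℝ) = inner ℝ w (prj a w') := by
  have h1 : (inner ℝ (om (om a.fst (ocj a.snd)) w.snd) w'.fst : ℝ) =
      inner ℝ w.snd (om (om a.snd (ocj a.fst)) w'.fst) := by
    rw [inner_om_l, ocj_om, ocj_ocj]
  have h2 : (inner ℝ (om (om a.snd (ocj a.fst)) w.fst) w'.snd : ℝ) =
      inner ℝ w.fst (om (om a.fst (ocj a.snd)) w'.snd) := by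
    rw [inner_om_l, ocj_om, ocj_ocj]
  rw [inner_OV, inner_OV]
  unfold prj
  rw [ov_fst, ov_snd, ov_fst, ov_snd, inner_add_left, inner_add_left, inner_add_right,
    inner_add_right, real_inner_smul_left, real_inner_smul_left, real_inner_smul_right,
    real_inner_smul_right, h1, h2]
  ring

theorem inner_prj_self (a w : OV) : (inner ℝ (prj a w) w : ℝ) = lin' a w := by
  have h1 : (inner ℝ (om (om a.fst (ocj a.snd)) w.snd) w.fst : ℝ) =
      inner ℝ (om a.fst (ocj a.snd)) (om w.fst (ocj w.snd)) := inner_om_r _ _ _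
  have h2 : (inner ℝ (om (om a.snd (ocj a.fst)) w.fst) w.snd : ℝ) =
      inner ℝ (om a.fst (ocj a.snd)) (om w.fst (ocj w.snd)) := by
    rw [inner_om_l, ocj_om, ocj_ocj, real_inner_comm, h1]
  rw [inner_OV]
  unfold prj lin'
  rw [ov_fst, ov_snd, inner_add_left, inner_add_left, real_inner_smul_left, real_inner_smul_left,
    h1, h2]
  ring

/-- the conjugation of both components -/
def cvL : OV →ₗ[ℝ] OV where
  toFun z := ov (ocj z.fst) (ocj z.snd)
  map_add' z w := by
    refine ov_ext ?_ ?_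
    · exact ocj_add _ _
    · exact ocj_add _ _
  map_smul' c z := by
    refine ov_ext ?_ ?_
    · exact ocj_smul _ _
    · exact ocj_smul _ _

theorem cvL_apply (z : OV) : cvL z = ov (ocj z.fst) (ocj z.snd) := rfl

theorem cvL_cvL (z : OV) : cvL (cvL z) = z := by
  refine ov_ext ?_ ?_
  · exact ocj_ocj _
  · exact ocj_ocj _

theorem inner_cvL (z w : OV) : (inner ℝ (cvL z) (cvL w) : ℝ) = inner ℝ z w := by
  rw [inner_OV, inner_OV, cvL_apply, cvL_apply, ov_fst, ov_snd, ov_fst, ov_snd, inner_ocj_ocj,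
    inner_ocj_ocj]

/-- the conjugation of both components, as an isometry -/
def cv : OV ≃ₗᵢ[ℝ] OV where
  toLinearEquiv := LinearEquiv.ofInvolutive cvL cvL_cvL
  norm_map' z := by
    have e1 := inner_cvL z z
    rw [real_inner_self_eq_norm_sq, real_inner_self_eq_norm_sq] at e1
    exact (sq_eq_sq₀ (norm_nonneg _) (norm_nonneg _)).1 e1

theorem cv_apply (z : OV) : cv z = ov (ocj z.fst) (ocj z.snd) := rfl

theorem lin_cv (z w : OV) : lin' (cv z) (cv w) = lin z w := by
  rw [cv_apply, cv_apply]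
  unfold lin' lin
  rw [ov_fst, ov_snd, ov_fst, ov_snd, inner_ocj_ocj, inner_ocj_ocj, inner_ocj_ocj, inner_ocj_ocj,
    ocj_ocj, ocj_ocj, cj_eq, cj_eq]

/-- the quaternionic plane in the octonionic plane -/
def embL : HV 2 →ₗ[ℝ] OV where
  toFun z := ov (oc (z 0) 0) (oc (z 1) 0)
  map_add' z w := by
    refine ov_ext (oc_ext rfl ?_) (oc_ext rfl ?_)
    · exact (add_zero (0 : Quaternion ℝ)).symm
    · exact (add_zero (0 : Quaternion ℝ)).symm
  map_smul' c z := by
    refine ov_ext (oc_ext rfl ?_) (oc_ext rfl ?_)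
    · exact (smul_zero (A := Quaternion ℝ) c).symm
    · exact (smul_zero (A := Quaternion ℝ) c).symm

theorem inner_embL (z w : HV 2) : (inner ℝ (embL z) (embL w) : ℝ) = inner ℝ z w := by
  rw [inner_OV, PiLp.inner_apply, Fin.sum_univ_two]
  show (inner ℝ (oc (z 0) 0) (oc (w 0) 0) : ℝ) + inner ℝ (oc (z 1) 0) (oc (w 1) 0) = _
  rw [inner_Oc, inner_Oc, oc_fst, oc_snd, oc_fst, oc_snd, oc_fst, oc_snd, oc_fst, oc_snd,
    inner_zero_left, add_zero, add_zero]

/-- the quaternionic plane in the octonionic plane -/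
def emb : HV 2 →ₗᵢ[ℝ] OV where
  toLinearMap := embL
  norm_map' z := by
    have e1 := inner_embL z z
    rw [real_inner_self_eq_norm_sq, real_inner_self_eq_norm_sq] at e1
    exact (sq_eq_sq₀ (norm_nonneg _) (norm_nonneg _)).1 e1

theorem emb_apply (z : HV 2) : emb z = ov (oc (z 0) 0) (oc (z 1) 0) := rfl

theorem om_oc0 (a b : Quaternion ℝ) : om (oc a 0) (oc b 0) = oc (a * b) 0 := by
  rw [om_oc, star_zero, zero_mul, zero_mul, zero_mul, sub_zero, add_zero]

theorem ocj_oc0 (a : Quaternion ℝ) : ocj (oc a 0) = oc (star a) 0 := by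
  unfold ocj
  rw [oc_fst, oc_snd, neg_zero]

theorem oc_add (a b c d : Quaternion ℝ) : oc a b + oc c d = oc (a + c) (b + d) := rfl

theorem oc_smul (r : ℝ) (a b : Quaternion ℝ) : r • oc a b = oc (r • a) (r • b) := rfl

theorem prj_emb (u w : HV 2) : prj (emb u) (emb w) = emb (rm u (hp u w)) := by
  have h0 : hp u w = star (u 0) * w 0 + star (u 1) * w 1 := by
    unfold hp
    rw [Fin.sum_univ_two]
  have e0 : ∀ a : Quaternion ℝ, (inner ℝ a a : ℝ) • (1 : Quaternion ℝ) = a * star a := by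
    intro a
    rw [Quaternion.inner_self, Quaternion.self_mul_star, ← Quaternion.coe_mul_eq_smul, mul_one]
  have e1 : ∀ a b : Quaternion ℝ, (inner ℝ a a : ℝ) • b = a * (star a * b) := by
    intro a b
    rw [← mul_assoc, ← e0, smul_mul_assoc, one_mul]
  rw [emb_apply, emb_apply, emb_apply]
  unfold prj
  rw [ov_fst, ov_snd, ov_fst, ov_snd, ocj_oc0, ocj_oc0, om_oc0, om_oc0, om_oc0, om_oc0, inner_Oc,
    inner_Oc, oc_fst, oc_snd, oc_fst, oc_snd, inner_zero_left, add_zero, add_zero, oc_smul,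
    oc_smul, smul_zero, smul_zero, oc_add, oc_add, add_zero, e1, e1]
  refine ov_ext (oc_ext ?_ rfl) (oc_ext ?_ rfl)
  · show u 0 * (star (u 0) * w 0) + u 0 * star (u 1) * w 1 = u 0 * hp u w
    rw [h0, mul_add, mul_assoc]
  · show u 1 * star (u 0) * w 0 + u 1 * (star (u 1) * w 1) = u 1 * hp u w
    rw [h0, mul_add, mul_assoc]

/-- the involution of the octonions fixing the quaternions -/
def kpL : Oc →ₗ[ℝ] Oc where
  toFun x := oc x.fst (-x.snd)
  map_add' _ _ := oc_ext rfl (neg_add _ _)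
  map_smul' _ _ := oc_ext rfl (smul_neg _ _).symm

theorem kpL_apply (x : Oc) : kpL x = oc x.fst (-x.snd) := rfl

theorem kpL_om (x y : Oc) : kpL (om x y) = om (kpL x) (kpL y) := by
  refine oc_ext ?_ ?_
  · show x.fst * y.fst - star y.snd * x.snd = x.fst * y.fst - star (-y.snd) * (-x.snd)
    rw [star_neg, neg_mul_neg]
  · show -(y.snd * x.fst + x.snd * star y.fst) = -y.snd * x.fst + -x.snd * star y.fst
    rw [neg_mul, neg_mul, neg_add]

theorem kpL_ocj (x : Oc) : kpL (ocj x) = ocj (kpL x) := rfl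

theorem inner_kpL (x y : Oc) : (inner ℝ (kpL x) (kpL y) : ℝ) = inner ℝ x y := by
  rw [inner_Oc, inner_Oc, kpL_apply, kpL_apply, oc_fst, oc_snd, oc_fst, oc_snd, inner_neg_neg]

/-- the involution of the octonionic plane fixing the quaternionic plane -/
def kvL : OV →ₗ[ℝ] OV where
  toFun z := ov (kpL z.fst) (kpL z.snd)
  map_add' _ _ := ov_ext (map_add kpL _ _) (map_add kpL _ _)
  map_smul' _ _ := ov_ext (map_smul kpL _ _) (map_smul kpL _ _)

theorem kvL_apply (z : OV) : kvL z = ov (kpL z.fst) (kpL z.snd) := rfl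

theorem inner_kvL (z w : OV) : (inner ℝ (kvL z) (kvL w) : ℝ) = inner ℝ z w := by
  rw [inner_OV, inner_OV, kvL_apply, kvL_apply, ov_fst, ov_snd, ov_fst, ov_snd, inner_kpL,
    inner_kpL]

theorem norm_kvL (z : OV) : ‖kvL z‖ = ‖z‖ := by
  have e1 := inner_kvL z z
  rw [real_inner_self_eq_norm_sq, real_inner_self_eq_norm_sq] at e1
  exact (sq_eq_sq₀ (norm_nonneg _) (norm_nonneg _)).1 e1

theorem prj_kvL (a w : OV) : prj (kvL a) (kvL w) = kvL (prj a w) := by
  refine ov_ext ?_ ?_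
  · show (inner ℝ (kpL a.fst) (kpL a.fst) : ℝ) • kpL w.fst +
      om (om (kpL a.fst) (ocj (kpL a.snd))) (kpL w.snd) =
      kpL ((inner ℝ a.fst a.fst : ℝ) • w.fst + om (om a.fst (ocj a.snd)) w.snd)
    rw [map_add, map_smul, kpL_om, kpL_om, kpL_ocj, inner_kpL]
  · show om (om (kpL a.snd) (ocj (kpL a.fst))) (kpL w.fst) +
      (inner ℝ (kpL a.snd) (kpL a.snd) : ℝ) • kpL w.snd =
      kpL (om (om a.snd (ocj a.fst)) w.fst + (inner ℝ a.snd a.snd : ℝ) • w.snd)
    rw [map_add, map_smul, kpL_om, kpL_om, kpL_ocj, inner_kpL]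

theorem kpL_fix {x : Oc} : kpL x = x ↔ x.snd = 0 := by
  constructor
  · intro h
    have h1 : -x.snd = x.snd := congrArg (fun z : Oc => z.snd) h
    have h2 : (2 : ℝ) • x.snd = 0 := by
      rw [two_smul]
      nth_rewrite 1 [← h1]
      exact neg_add_cancel _
    exact (smul_eq_zero.1 h2).resolve_left two_ne_zero
  · intro h
    refine oc_ext rfl ?_
    show -x.snd = x.snd
    rw [h, neg_zero]

theorem kvL_fix {z : OV} : kvL z = z ↔ z ∈ range emb := by
  constructor
  · intro h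
    have h1 : z.fst.snd = 0 := kpL_fix.1 (congrArg (fun z : OV => z.fst) h)
    have h2 : z.snd.snd = 0 := kpL_fix.1 (congrArg (fun z : OV => z.snd) h)
    refine ⟨WithLp.toLp 2 ![z.fst.fst, z.snd.fst], ?_⟩
    refine ov_ext (oc_ext rfl ?_) (oc_ext rfl ?_)
    · exact h1.symm
    · exact h2.symm
  · rintro ⟨w, rfl⟩
    exact ov_ext (kpL_fix.2 rfl) (kpL_fix.2 rfl)

/-- the vectors of an adapted frame are quaternionic -/
theorem mem_emb (a b c d : ℝ) : ov (a • o1 + b • oc ⟨0, 1, 0, 0⟩ 0) (c • o1 + d • oc ⟨0, 1, 0, 0⟩ 0)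
    ∈ range emb := by
  refine kvL_fix.1 (ov_ext (kpL_fix.2 ?_) (kpL_fix.2 ?_))
  · show a • (0 : Quaternion ℝ) + b • (0 : Quaternion ℝ) = 0
    rw [smul_zero, smul_zero, add_zero]
  · show c • (0 : Quaternion ℝ) + d • (0 : Quaternion ℝ) = 0
    rw [smul_zero, smul_zero, add_zero]

end

end Vale.Agent.P231.QO
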