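import Vale.Agent.P231.QO.S9

/-! P231: the isometry with the octonionic projective plane. -/

set_option maxSynthPendingDepth 3
set_option linter.unusedSectionVars false

open Bundle Manifold Set Filter Module
open scoped ContDiff Manifold Topology

namespace Vale.Agent.P231.QO

noncomputable section

open Vale.Agent.P234 Vale.Agent.P231 Vale.Agent.P231.H703 Vale.Agent.P231.H775
  Vale.Agent.P231.H512 Vale.Agent.P231.QF

variable {E : Type*} [NormedAddCommGroup E] [NormedSpace ℝ E] [FiniteDimensional ℝ E]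
  {M : Type*} [MetricSpace M] [ChartedSpace E M]
  [RiemannianBundle (fun x : M => TangentSpace 𝓘(ℝ, E) x)]
  [IsManifold 𝓘(ℝ, E) ∞ M]
  [IsContMDiffRiemannianBundle 𝓘(ℝ, E) ∞ E (fun x : M => TangentSpace 𝓘(ℝ, E) x)]
  {e : ∀ x : M, TangentSpace 𝓘(ℝ, E) x → M}
  [CompactSpace M] [ConnectedSpace M] [IsRiemannianManifold 𝓘(ℝ, E) M]

/-- **A Blaschke manifold of model volume and cut multiplicity seven of dimension sixteen is
isometric to the octonionic projective plane.** -/
theorem isometric_of_rig {D : ℝ} (R : Rig e D 7) (hdim : finrank ℝ E = 16) (p : M) :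
    ∃ Z : M → Fin 3 → Fin 3 → Oc, (∀ x, IsCayley (Z x)) ∧
      (∀ x y, dist x y = 2 * D / Real.pi *
        Real.arccos √(∑ i, ∑ j, (inner ℝ (Z x i j) (Z y i j) : ℝ))) ∧
      ∀ A, IsCayley A → ∃ x, Z x = A := by
  obtain ⟨P, hP⟩ := R.proj
  obtain ⟨T, -, -, hT⟩ := exists_T8 R hP hdim p 0 0
  have hT' : CT P p T := hT
  have hD := R.pos
  let Q : TangentSpace 𝓘(ℝ, E) p → OV := fun v => cv (T v)
  have hQn : ∀ v, ‖Q v‖ = ‖v‖ := fun v => (cv.norm_map _).trans (T.norm_map v)
  have hQi : ∀ v w, (inner ℝ (Q v) (Q w) : ℝ) = inner ℝ v w := fun v w =>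
    (cv.inner_map_map _ _).trans (T.inner_map_map v w)
  have hcc : ∀ z : OV, cv (cv z) = z := cvL_cvL
  have hQl : ∀ v w, lin (Q v) (Q w) = lin' (T v) (T w) := fun v w => by
    have h1 := lin_cv (Q v) (Q w)
    rw [← h1]
    show lin' (cv (cv (T v))) (cv (cv (T w))) = _
    rw [hcc, hcc]
  have law : ∀ v w : TangentSpace 𝓘(ℝ, E) p, ‖v‖ ≤ D → ‖w‖ ≤ D →
      dist (e p v) (e p w) = 2 * D / Real.pi * Real.arccos
        √(∑ i, ∑ j, (inner ℝ (SO (cc D) (Q v) i j) (SO (cc D) (Q w) i j) : ℝ)) := by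
    intro v w hv hw
    rw [inner_SO, hQn, hQn, hQi, hQl]
    exact hT'.law R hdim hP hv hw
  have hlog : ∀ x : M, ‖symmL R.facts p x‖ ≤ D := fun x =>
    (symmL_norm R.facts p x).trans_le (R.diam p x)
  have hexp : ∀ x : M, e p (symmL R.facts p x) = x := fun x => symmL_exp R.facts p x
  refine ⟨fun x => SO (cc D) (Q (symmL R.facts p x)), fun x => isCayley_SO _ _, fun x y => ?_,
    fun A hA => ?_⟩
  · have h1 := law (symmL R.facts p x) (symmL R.facts p y) (hlog x) (hlog y)
    rw [hexp, hexp] at h1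
    exact h1
  · obtain ⟨z, hz, rfl⟩ := exists_SO hD hA
    set v : TangentSpace 𝓘(ℝ, E) p := T.symm (cv z) with hv
    have hQv : Q v = z := by
      show cv (T (T.symm (cv z))) = z
      rw [T.apply_symm_apply, hcc]
    have hvn : ‖v‖ ≤ D := by
      rw [← hQn, hQv]
      exact hz
    refine ⟨e p v, ?_⟩
    have h1 := law (symmL R.facts p (e p v)) v (hlog _) hvn
    rw [hexp, dist_self] at h1
    have h2 : (0 : ℝ) < 2 * D / Real.pi := by positivity
    have h3 := (mul_eq_zero.1 h1.symm).resolve_left h2.ne'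
    rw [Real.arccos_eq_zero, Real.one_le_sqrt] at h3
    have h4 := eq_of_inner_eq_one (isCayley_SO _ _) (isCayley_SO _ _) h3
    rw [hQv] at h4
    exact h4

end

end Vale.Agent.P231.QO
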