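import Vale.Agent.P231.QO.S4

/-! P231: the totally geodesic part: the map to the quaternionic projective space does not increase
distances. -/

set_option maxSynthPendingDepth 3
set_option linter.unusedSectionVars false

open Bundle Manifold Set Filter Module
open scoped ContDiff Manifold Topology

namespace Vale.Agent.P231.QO

noncomputable section

open Vale.Agent.P234 Vale.Agent.P231 Vale.Agent.P231.H703 Vale.Agent.P231.H775
  Vale.Agent.P231.H512 Vale.Agent.P231.QF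

variable {E : Type*} [NormedAddCommGroup E] [NormedSpace ℝ E] [FiniteDimensional ℝ E]
  {M : Type*} [MetricSpace M] [ChartedSpace E M]
  [RiemannianBundle (fun x : M => TangentSpace 𝓘(ℝ, E) x)]
  [IsManifold 𝓘(ℝ, E) ∞ M]
  [IsContMDiffRiemannianBundle 𝓘(ℝ, E) ∞ E (fun x : M => TangentSpace 𝓘(ℝ, E) x)]
  {e : ∀ x : M, TangentSpace 𝓘(ℝ, E) x → M}
  [CompactSpace M] [ConnectedSpace M] [IsRiemannianManifold 𝓘(ℝ, E) M]
  {D : ℝ} {l : ℕ} {p : M} {n : ℕ} {T : HV n →ₗᵢ[ℝ] TangentSpace 𝓘(ℝ, E) p}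

/-- the metric in normal coordinates (raw form) -/
theorem metricE (F : Facts e) {P : E → E →ₗ[ℝ] E} (hP : PData e D l p P) {u : E}
    (hu : nm p u = 1) {r : ℝ} (hr : r ∈ Ioo 0 D) (w : E) :
    nm (e p (r • u : E)) (dE e p (r • u) w) ^ 2 = ip p u w ^ 2 +
      (Real.sin (cc D * r) / (cc D * r)) ^ 2 *
        (nm p (w - ip p u w • u) ^ 2 - Real.sin (cc D * r) ^ 2 *
          nm p (P u (w - ip p u w • u)) ^ 2) := by
  have h3 := metric_formula F hP hu hr w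
  have h9 : Real.pi * r / (2 * D) = cc D * r := by
    unfold cc
    ring
  rw [h9] at h3
  exact h3

/-- the derivative of the map has the right length -/
theorem Sub.speed (m : Sub e D l p T) {η : ℝ → HV n} {t : ℝ}
    {η' : HV n} (hη : HasDerivAt η η' t) (h0 : η t ≠ 0) (hD : ‖η t‖ < D) :
    ∃ z' : HV (n + 1), HasDerivAt (fun s => S (cc D) (η s)) z' t ∧
      ‖Qp (S (cc D) (η t)) z'‖ =
        cc D * nm (E := E) (ee e T (η t)) (dE (E := E) e p (T (η t)) (T η')) := by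
  obtain ⟨P, hP, hJ⟩ := m.proj
  have hc := m.cpos
  set r : ℝ := ‖η t‖ with hr
  have hr0 : 0 < r := norm_pos_iff.2 h0
  set u : HV n := r⁻¹ • η t with hu
  have hηu : η t = r • u := by rw [hu, smul_smul, mul_inv_cancel₀ hr0.ne', one_smul]
  have hu1 : ‖u‖ = 1 := by
    rw [hu, norm_smul, norm_inv, norm_norm, inv_mul_cancel₀ hr0.ne']
  set a : ℝ := inner ℝ u η' with ha
  obtain ⟨z', h1, h2⟩ := deriv_S hc.ne' hη hr.symm hr0 hηu ha.symm
  refine ⟨z', h1, ?_⟩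
  have hu1' : ‖T u‖ = 1 := (T.norm_map u).trans hu1
  have ha' : (inner ℝ (T u) (T η') : ℝ) = a := T.inner_map_map u η'
  have hw0 : (inner ℝ u (η' - a • u) : ℝ) = 0 := by
    rw [inner_sub_right, inner_smul_right, real_inner_self_eq_norm_sq, hu1, ← ha]
    ring
  have hPn : ‖tof p (P p (T u : E) (T (η' - a • u) : E))‖ = ‖hp u (η' - a • u)‖ := by
    have h5 := hJ u (η' - a • u) hu1
    rw [hw0, zero_smul, zero_add] at h5
    rw [h5, T.norm_map, norm_rm, hu1, one_mul]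
  have h3 : nm (E := E) (ee e T (η t)) (dE (E := E) e p (T (η t)) (T η')) ^ 2 =
      a ^ 2 + (Real.sin (cc D * r) / (cc D * r)) ^ 2 *
        (‖η' - a • u‖ ^ 2 - Real.sin (cc D * r) ^ 2 * ‖hp u (η' - a • u)‖ ^ 2) := by
    let U : E := T u
    let W : E := T η'
    let W' : E := T (η' - a • u)
    have h4 := metricE m.rig.facts (hP p) (u := U) hu1' (r := r) ⟨hr0, hD⟩ W
    have h9 : ip (E := E) p U W = a := ha'
    have h7 : W - ip (E := E) p U W • U = W' := by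
      have h8 : T (η' - a • u) = T η' - a • T u := by
        rw [map_sub, map_smul]
      rw [h9]
      exact h8.symm
    have h10 : nm (E := E) p W' = ‖η' - a • u‖ := T.norm_map _
    have h11 : nm (E := E) p (P p U W') = ‖hp u (η' - a • u)‖ := hPn
    rw [h7, h9, h10, h11] at h4
    rw [← h4, hηu]
    have h12 : T (r • u) = r • T u := map_smul _ _ _
    unfold ee
    rw [h12]
    rfl
  have h10 : ‖Qp (S (cc D) (η t)) z'‖ ^ 2 =
      (cc D * nm (E := E) (ee e T (η t)) (dE (E := E) e p (T (η t)) (T η'))) ^ 2 := by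
    have h4 : (cc D * nm (E := E) (ee e T (η t))
        (dE (E := E) e p (T (η t)) (T η'))) ^ 2 = cc D ^ 2 *
        (a ^ 2 + (Real.sin (cc D * r) / (cc D * r)) ^ 2 *
        (‖η' - a • u‖ ^ 2 - Real.sin (cc D * r) ^ 2 * ‖hp u (η' - a • u)‖ ^ 2)) :=
      (mul_pow _ _ _).trans (congrArg (fun x => cc D ^ 2 * x) h3)
    refine Eq.trans ?_ h4.symm
    rw [h2]
    have := hc.ne'
    have := hr0.ne'
    field_simp
  exact (sq_eq_sq₀ (norm_nonneg _) (mul_nonneg hc.le (nm_nonneg _ _))).1 h10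

/-- local estimate for smooth curves in the part -/
theorem Sub.local_le (m : Sub e D l p T) {γ : ℝ → M} {t : ℝ}
    (hγ : ContMDiffAt 𝓘(ℝ, ℝ) 𝓘(ℝ, E) ∞ γ t) (hS : ∀ᶠ s in 𝓝 t, γ s ∈ Sg e D T) {ℓ : ℝ}
    (hs : nm (E := E) (γ t) (mfderiv 𝓘(ℝ, ℝ) 𝓘(ℝ, E) γ t (1 : ℝ)) = ℓ) (h0 : γ t ≠ p)
    (hD : dist p (γ t) < D) {C : ℝ} (hC : cc D * ℓ < C) :
    ∀ᶠ s in 𝓝[≠] t, fs (ZZ e D T (γ t)) (ZZ e D T (γ s)) ≤
      C * |s - t| := by
  have F := m.rig.facts
  have hfd : FiniteDimensional ℝ (TangentSpace 𝓘(ℝ, E) p) :=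
    inferInstanceAs (FiniteDimensional ℝ E)
  have hγt : γ t ∈ Sg e D T := hS.self_of_nhds
  set w₀ : HV n := ll e D T (γ t) with hw₀
  set v : TangentSpace 𝓘(ℝ, E) p := T w₀ with hv
  have hvD : ‖v‖ < D := by
    rw [hv, T.norm_map, hw₀, m.norm_ll hγt]
    exact hD
  have hev : e p v = γ t := (ll_spec hγt).2
  obtain ⟨Λ, hΛ, hΛv, hΛ1, -⟩ := F.smoothLog (m.rig.inj.mem_injDomain hvD)
  rw [hev] at hΛ hΛv hΛ1
  have hηs : ContMDiffAt 𝓘(ℝ, ℝ) 𝓘(ℝ, TangentSpace 𝓘(ℝ, E) p) ∞ (fun s => Λ (γ s)) t :=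
    hΛ.comp t hγ
  -- a left inverse of the embedding
  obtain ⟨g, hg⟩ := T.toLinearMap.exists_leftInverse_of_injective
    (LinearMap.ker_eq_bot.2 T.injective)
  have hg' : ∀ w, g (T w) = w := fun w => congrArg (fun L : HV n →ₗ[ℝ] HV n => L w) hg
  let G : TangentSpace 𝓘(ℝ, E) p →L[ℝ] HV n := LinearMap.toContinuousLinearMap g
  have hG : ∀ w, G (T w) = w := hg'
  have hη := (hηs.contDiffAt.differentiableAt (by simp)).hasDerivAt
  have h1 : γ =ᶠ[𝓝 t] fun s => e p (Λ (γ s)) := by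
    filter_upwards [hγ.continuousAt hΛ1] with s hs
    exact hs.2.symm
  have hcd : ContinuousAt (fun s => dist p (γ s)) t := continuousAt_const.dist hγ.continuousAt
  have h2 : ∀ᶠ s in 𝓝 t, Λ (γ s) = T (G (Λ (γ s))) := by
    filter_upwards [hγ.continuousAt hΛ1, hS, hcd.eventually_lt continuousAt_const hD] with s h3 h4 h5
    have h6 : ‖ll e D T (γ s)‖ < D := by
      rw [m.norm_ll h4]
      exact h5
    have h7 : T (ll e D T (γ s)) ∈ injDomain e p :=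
      m.rig.inj.mem_injDomain ((T.norm_map _).trans_lt h6)
    have h8 : Λ (γ s) = T (ll e D T (γ s)) := by
      refine F.injDomain_unique h7 h3.1 ?_
      exact h3.2.trans (ll_spec h4).2.symm
    rw [h8, hG]
  set η : ℝ → HV n := fun s => G (Λ (γ s)) with hηdef
  have hηd : HasDerivAt η (G (deriv (fun s => Λ (γ s)) t)) t :=
    G.hasFDerivAt.comp_hasDerivAt t hη
  have hηt : η t = w₀ := by
    show G (Λ (γ t)) = w₀
    rw [hΛv]
    exact hG _
  have hTη : (fun s => Λ (γ s)) =ᶠ[𝓝 t] fun s => T (η s) := h2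
  let Tc : HV n →L[ℝ] TangentSpace 𝓘(ℝ, E) p := T.toContinuousLinearMap
  have hd2 : HasDerivAt (fun s => Tc (η s)) (T (G (deriv (fun s => Λ (γ s)) t))) t :=
    Tc.hasFDerivAt.comp_hasDerivAt t hηd
  have hd3 : deriv (fun s => Λ (γ s)) t = T (G (deriv (fun s => Λ (γ s)) t)) :=
    hη.unique (hd2.congr_of_eventuallyEq hTη)
  have hv0 : w₀ ≠ 0 := by
    intro h2
    apply h0
    rw [← hev, hv, h2, map_zero]
    exact F.isExp.map_zero p
  obtain ⟨z', h3, h4⟩ := m.speed hηd (by rw [hηt]; exact hv0)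
    (by rw [hηt, ← T.norm_map]; exact hvD)
  have h5 : (mfderiv 𝓘(ℝ, ℝ) 𝓘(ℝ, E) γ t (1 : ℝ) : E) =
      dE e p (Λ (γ t) : E) (deriv (fun s => Λ (γ s)) t : E) :=
    (congrArg (fun L : ℝ →L[ℝ] E => L 1) h1.mfderiv_eq).trans (mfderiv_exp_curve F.isExp p hη)
  have h6 : ee e T (η t) = γ t := by
    rw [hηt]
    exact hev
  have h7 : nm (E := E) (ee e T (η t)) (dE (E := E) e p (T (η t))
      (T (G (deriv (fun s => Λ (γ s)) t)))) = ℓ := by
    rw [h6, ← hs, ← hd3, hηt, ← hv, ← hΛv]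
    exact congrArg (nm (E := E) (γ t)) h5.symm
  have h8 : ‖Qp (S (cc D) (η t)) z'‖ = cc D * ℓ := h4.trans (congrArg (fun x => cc D * x) h7)
  have h9 : ∀ᶠ s in 𝓝 t, ‖η s‖ < D :=
    hηd.continuousAt.norm.eventually_lt continuousAt_const
      (by rw [hηt, ← T.norm_map]; exact hvD)
  have h10 := fs_le_of_deriv (z := fun s => S (cc D) (η s)) (t := t) (z' := z')
    (Eventually.of_forall fun s => norm_S m.cpos.ne' _) h3 (C := C) (by rw [h8]; exact hC)
  filter_upwards [h10, nhdsWithin_le_nhds h9, nhdsWithin_le_nhds h1, nhdsWithin_le_nhds h2]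
    with s h11 h12 h13 h14
  have h15 : γ s = ee e T (η s) := by
    unfold ee
    rw [h13]
    exact congrArg (e p) h14
  rw [h15, ← h6, m.fs_eq (by rw [hηt, ← T.norm_map]; exact hvD.le) h12.le]
  exact h11

/-- the Fubini-Study distance on the part -/
def Sub.dl (_ : Sub e D l p T) (x y : M) : ℝ := fs (ZZ e D T x) (ZZ e D T y)

theorem Sub.dl_def (m : Sub e D l p T) (x y : M) :
    m.dl x y = fs (ZZ e D T x) (ZZ e D T y) := rfl

theorem Sub.dl_self (m : Sub e D l p T) (x : M) : m.dl x x = 0 := fs_self (m.norm_ZZ x)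

theorem Sub.dl_tri (m : Sub e D l p T) (x y z : M) : m.dl x z ≤ m.dl x y + m.dl y z :=
  fs_triangle (m.norm_ZZ _) (m.norm_ZZ _) (m.norm_ZZ _)

theorem Sub.continuous_dl (m : Sub e D l p T) : Continuous fun q : Sg e D T × Sg e D T =>
    m.dl q.1 q.2 := m.continuous_fs

theorem Sub.dl_local (m : Sub e D l p T) {γ : ℝ → M} {t : ℝ}
    (hγ : ContMDiffAt 𝓘(ℝ, ℝ) 𝓘(ℝ, E) ∞ γ t) (hS : ∀ᶠ s in 𝓝 t, γ s ∈ Sg e D T) {ℓ : ℝ}
    (hs : nm (E := E) (γ t) (mfderiv 𝓘(ℝ, ℝ) 𝓘(ℝ, E) γ t (1 : ℝ)) = ℓ) (h0 : γ t ≠ p)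
    (hD : dist p (γ t) < D) {C : ℝ} (hC : cc D * ℓ < C) :
    ∀ᶠ s in 𝓝[>] t, m.dl (γ t) (γ s) ≤ C * (s - t) := by
  have h4 := m.local_le hγ hS hs h0 hD hC
  have h5 : 𝓝[>] t ≤ 𝓝[≠] t := nhdsWithin_mono t fun s hs => ne_of_gt hs
  filter_upwards [h5 h4, self_mem_nhdsWithin] with s h6 h7
  rwa [abs_of_pos (sub_pos.2 h7)] at h6

attribute [irreducible] Sub.dl

end

end Vale.Agent.P231.QO
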