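import Vale.Agent.P231.QO.S5

/-! P231: the totally geodesic part: distances agree with those of the quaternionic projective
space. -/

set_option maxSynthPendingDepth 3
set_option linter.unusedSectionVars false

open Bundle Manifold Set Filter Module
open scoped ContDiff Manifold Topology

namespace Vale.Agent.P231.QO

noncomputable section

open Vale.Agent.P234 Vale.Agent.P231 Vale.Agent.P231.H703 Vale.Agent.P231.H775
  Vale.Agent.P231.H512 Vale.Agent.P231.QF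

variable {E : Type*} [NormedAddCommGroup E] [NormedSpace ℝ E] [FiniteDimensional ℝ E]
  {M : Type*} [MetricSpace M] [ChartedSpace E M]
  [RiemannianBundle (fun x : M => TangentSpace 𝓘(ℝ, E) x)]
  [IsManifold 𝓘(ℝ, E) ∞ M]
  [IsContMDiffRiemannianBundle 𝓘(ℝ, E) ∞ E (fun x : M => TangentSpace 𝓘(ℝ, E) x)]
  {e : ∀ x : M, TangentSpace 𝓘(ℝ, E) x → M}
  [CompactSpace M] [ConnectedSpace M] [IsRiemannianManifold 𝓘(ℝ, E) M]
  {D : ℝ} {l : ℕ} {p : M} {n : ℕ} {T : HV n →ₗᵢ[ℝ] TangentSpace 𝓘(ℝ, E) p}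

/-- geodesics between points fixed by an isometry are fixed -/
theorem geo_fix (R : Rig e D l) {τ : M ≃ᵢ M} {x y : M} (hx : τ x = x) (hy : τ y = y)
    (hxy : dist x y < D) {w : E} (hw : e x w = y) (hdw : nm x w = dist x y) (t : ℝ) :
    τ (gam e x w t) = gam e x w t := by
  obtain ⟨w', h1, h2⟩ := linear_exists R.facts.isExp τ x w
  rw [hx] at h1 h2
  have h3 := h2 1
  rw [one_smul, one_smul, hw, hy] at h3
  have h4 : ‖tof x w‖ < D := by
    show nm x w < D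
    rw [hdw]
    exact hxy
  have h5 : tof x w ∈ injDomain e x := R.inj.mem_injDomain h4
  have h6 : tof x w' ∈ segMin e x := by
    show dist x (e x w') = nm x w'
    rw [h1, h3, hdw]
  have h7 : w' = w := R.facts.injDomain_unique h5 h6 (h3.trans hw.symm)
  have h8 := h2 t
  rw [h7] at h8
  exact h8.symm

/-- minimal geodesics of the part stay in the part -/
theorem Sub.geo_mem (m : Sub e D l p T) {x y : M} (hx : x ∈ Sg e D T) (hy : y ∈ Sg e D T)
    (hxD : dist p x < D) (hxy : dist x y < D) {w : E} (hw : e x w = y)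
    (hdw : nm x w = dist x y) {t : ℝ} (ht : t ∈ Icc (0 : ℝ) 1) : gam e x w t ∈ Sg e D T := by
  obtain ⟨τ, L, hτ, hLn, hL⟩ := m.inv
  have F := m.rig.facts
  have hfix : ∀ t, τ (gam e x w t) = gam e x w t := fun t =>
    geo_fix m.rig (fix_of_mem hτ hL hx) (fix_of_mem hτ hL hy) hxy hw hdw t
  have h1 : ∀ t, dist p (gam e x w t) < D → gam e x w t ∈ Sg e D T := fun t h =>
    m.mem_of_fix hτ hLn hL h (hfix t)
  rcases (m.rig.diam p (gam e x w t)).lt_or_eq with h | h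
  · exact h1 t h
  · -- the point is on the cut locus: approach it along the geodesic
    have hcc : Continuous (gam e x w) := (contMDiff_gam F.isExp x w).continuous
    have hc0 : gam e x w 0 = x := gam_zero F.isExp x w
    have ht0 : 0 < t := by
      rcases ht.1.eq_or_lt with h2 | h2
      · rw [← h2, hc0] at h
        exact absurd h hxD.ne
      · exact h2
    have hcl : IsClosed {s : ℝ | gam e x w s ∈ Sg e D T} := m.isClosed_Sg.preimage hcc
    have hsub : Ioo (0 : ℝ) t ⊆ {s : ℝ | gam e x w s ∈ Sg e D T} := by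
      intro s hs
      refine h1 s (lt_of_le_of_ne (m.rig.diam _ _) fun h3 => ?_)
      exact FS.cut_not_lt m.rig hxD hw hdw ⟨hs.1.le, hs.2.le.trans ht.2⟩ ht h3 h hs.2
    have h2 := closure_minimal hsub hcl
    rw [closure_Ioo ht0.ne] at h2
    exact h2 (right_mem_Icc.2 ht0.le)

theorem Sub.le_of_lt (m : Sub e D l p T) {x : M} (hxS : x ∈ Sg e D T) (hx : dist p x < D) {y : M}
    (hyS : y ∈ Sg e D T) : m.dl x y ≤ cc D * dist x y := by
  classical
  have F := m.rig.facts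
  rcases (m.rig.diam x y).lt_or_eq with hxyD | hxyD
  swap
  · rw [hxyD, m.ccD, m.dl_def]
    exact fs_le _ _
  rcases eq_or_ne x y with rfl | hxy
  · rw [m.dl_self x, dist_self, mul_zero]
  obtain ⟨w', hw', hdw'⟩ := F.hopfRinow x y
  obtain ⟨w, hw, hdw⟩ : ∃ w : E, e x w = y ∧ nm x w = dist x y := ⟨w', hw', hdw'.symm⟩
  have hc0 : gam e x w 0 = x := gam_zero F.isExp x w
  have hc1 : gam e x w 1 = y := by
    have : gam e x w 1 = e x ((1 : ℝ) • w : E) := rfl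
    rw [this, one_smul, hw]
  have hcs : ContMDiff 𝓘(ℝ, ℝ) 𝓘(ℝ, E) ∞ (gam e x w) := contMDiff_gam F.isExp x w
  have hcc : Continuous (gam e x w) := hcs.continuous
  have hℓ0 : 0 < dist x y := dist_pos.2 hxy
  have hmem : ∀ t ∈ Icc (0 : ℝ) 1, gam e x w t ∈ Sg e D T := fun t ht =>
    m.geo_mem hxS hyS hx hxyD hw hdw ht
  have hspeed : ∀ t, nm (E := E) (gam e x w t)
      (mfderiv 𝓘(ℝ, ℝ) 𝓘(ℝ, E) (gam e x w) t (1 : ℝ)) = dist x y := by
    intro t
    have h1 : nm (E := E) (gam e x w t) (mfderiv 𝓘(ℝ, ℝ) 𝓘(ℝ, E) (gam e x w) t (1 : ℝ)) =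
        nm (E := E) (gam e x w t) (vel e x (w : E) t) :=
      congrArg (nm (E := E) (gam e x w t)) (mfderiv_gam F.isExp x w t)
    rw [h1]
    exact (nm_vel F x w t).trans hdw
  have hK : Set.Subsingleton {t : ℝ | t ∈ Icc (0 : ℝ) 1 ∧ dist p (gam e x w t) = D} :=
    FS.subsing_of_not_lt fun t₁ t₂ h1 h2 => FS.cut_not_lt m.rig hx hw hdw h1.1 h2.1 h1.2 h2.2
  have hP : Set.Subsingleton {t : ℝ | t ∈ Icc (0 : ℝ) 1 ∧ gam e x w t = p} :=
    FS.subsing_of_not_lt fun t₁ t₂ h1 h2 h5 => by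
      have h6 := FS.geo_dist F hw hdw h1.1.1 h5.le h2.1.2
      rw [h1.2, h2.2, dist_self] at h6
      exact (mul_pos hℓ0 (sub_pos.2 h5)).ne h6
  have hfin := hK.finite.union hP.finite
  -- the curve clamped to the unit interval
  let pr : ℝ → Icc (0 : ℝ) 1 := projIcc 0 1 zero_le_one
  have hprc : Continuous pr := continuous_projIcc
  let c : ℝ → Sg e D T := fun t => ⟨gam e x w (pr t), hmem _ (pr t).2⟩
  have hcS : Continuous c :=
    (hcc.comp (continuous_subtype_val.comp hprc)).subtype_mk _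
  have hcv : ∀ t ∈ Icc (0 : ℝ) 1, ((c t : M)) = gam e x w t := fun t ht => by
    show gam e x w (pr t) = _
    rw [show pr t = ⟨t, ht⟩ from projIcc_of_mem zero_le_one ht]
  have hcont : Continuous fun q : ℝ × ℝ => m.dl (c q.1) (c q.2) :=
    m.continuous_dl.comp ((hcS.comp continuous_fst).prodMk (hcS.comp continuous_snd))
  have h1 := FS.lip_finite (δ := fun s t => m.dl (c s) (c t))
    (C := cc D * dist x y) (a := 0) (b := 1) hfin.toFinset zero_le_one
    (fun t => m.dl_self _) (fun r s t => m.dl_tri _ _ _) hcont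
    (fun t ht htB C' hC' => by
      rw [Set.Finite.mem_toFinset, Set.mem_union, not_or] at htB
      have ht' : t ∈ Icc (0 : ℝ) 1 := ⟨ht.1.le, ht.2.le⟩
      have h2 : dist p (gam e x w t) < D :=
        lt_of_le_of_ne (m.rig.diam _ _) fun h => htB.1 ⟨ht', h⟩
      have h3 : gam e x w t ≠ p := fun h => htB.2 ⟨ht', h⟩
      have hnear : ∀ᶠ s in 𝓝 t, s ∈ Ioo (0 : ℝ) 1 := isOpen_Ioo.mem_nhds ht
      have h4 := m.dl_local (γ := gam e x w) (t := t) hcs.contMDiffAt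
        (hnear.mono fun s hs => hmem s ⟨hs.1.le, hs.2.le⟩) (hspeed t) h3 h2 hC'
      filter_upwards [h4, nhdsWithin_le_nhds hnear] with s h5 h6
      rw [hcv t ht', hcv s ⟨h6.1.le, h6.2.le⟩]
      exact h5)
  rw [sub_zero, mul_one, hcv 0 (left_mem_Icc.2 zero_le_one), hcv 1 (right_mem_Icc.2 zero_le_one),
    hc0, hc1] at h1
  exact h1

/-- a closed condition which holds off the cut locus holds everywhere -/
theorem Sub.of_lt (m : Sub e D l p T) {Q : Sg e D T → Prop} (hQ : IsClosed {x | Q x})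
    (h : ∀ x : Sg e D T, dist p (x : M) < D → Q x) (x : Sg e D T) : Q x := by
  rcases (m.rig.diam p x).lt_or_eq with h0 | h0
  · exact h x h0
  · obtain ⟨v, hvx, hvD⟩ : ∃ v : HV n, ee e T v = x ∧ ‖v‖ = D :=
      ⟨ll e D T x, (ll_spec x.2).2, (m.norm_ll x.2).trans h0⟩
    let pr : ℝ → Icc (0 : ℝ) 1 := projIcc 0 1 zero_le_one
    have hprc : Continuous pr := continuous_projIcc
    have hle : ∀ s : Icc (0 : ℝ) 1, ‖(s : ℝ) • v‖ ≤ D := fun s => by
      rw [norm_smul, hvD, Real.norm_of_nonneg s.2.1]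
      have := m.rig.pos
      nlinarith [s.2.2]
    let c : ℝ → Sg e D T := fun t => ⟨ee e T ((pr t : ℝ) • v), mem_Sg (hle (pr t))⟩
    have hcS : Continuous c :=
      (m.continuous_ee.comp ((continuous_subtype_val.comp hprc).smul continuous_const)).subtype_mk _
    have hcv : ∀ t ∈ Icc (0 : ℝ) 1, ((c t : M)) = ee e T (t • v) := fun t ht => by
      show ee e T ((pr t : ℝ) • v) = _
      rw [show pr t = ⟨t, ht⟩ from projIcc_of_mem zero_le_one ht]
    have hcl : IsClosed {s : ℝ | Q (c s)} := hQ.preimage hcS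
    have hsub : Ioo (0 : ℝ) 1 ⊆ {s : ℝ | Q (c s)} := by
      intro s hs
      refine h _ ?_
      have hlt : ‖s • v‖ < D := by
        rw [norm_smul, hvD, Real.norm_of_nonneg hs.1.le]
        have := m.rig.pos
        nlinarith [hs.2]
      rw [hcv s ⟨hs.1.le, hs.2.le⟩, m.dist_ee hlt.le]
      exact hlt
    have h2 := closure_minimal hsub hcl
    rw [closure_Ioo zero_ne_one] at h2
    have h3 : Q (c 1) := h2 (right_mem_Icc.2 zero_le_one)
    have h4 : c 1 = x := Subtype.ext (by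
      rw [hcv 1 (right_mem_Icc.2 zero_le_one), one_smul, hvx])
    rwa [h4] at h3

theorem Sub.le (m : Sub e D l p T) (x y : Sg e D T) :
    m.dl x y ≤ cc D * dist (x : M) y :=
  m.of_lt (Q := fun x => m.dl x y ≤ cc D * dist (x : M) y)
    (isClosed_le (m.continuous_dl.comp (continuous_id.prodMk continuous_const))
      (continuous_const.mul (continuous_subtype_val.dist continuous_const)))
    (fun x hx => m.le_of_lt x.2 hx y.2) x

theorem Sub.dl_nonneg (m : Sub e D l p T) (x y : M) : 0 ≤ m.dl x y := by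
  rw [m.dl_def]
  exact fs_nonneg _ _

/-- curves that are continuous for the Fubini-Study distance are continuous -/
theorem Sub.continuous_of_dl (m : Sub e D l p T) {X : ℝ → Sg e D T}
    (h : ∀ t, Tendsto (fun s => m.dl (X t) (X s)) (𝓝 t) (𝓝 0)) : Continuous X := by
  have hcomp : CompactSpace (Sg e D T) := isCompact_iff_compactSpace.1 m.isCompact_Sg
  rw [continuous_iff_continuousAt]
  intro t
  rw [ContinuousAt, tendsto_nhds]
  intro U hU hxU
  have hK : IsCompact Uᶜ := hU.isClosed_compl.isCompact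
  have hcont : Continuous fun y : Sg e D T => m.dl (X t) y :=
    m.continuous_dl.comp (continuous_const.prodMk continuous_id)
  rcases (Uᶜ).eq_empty_or_nonempty with he | hne
  · refine Eventually.of_forall fun s => ?_
    rw [compl_empty_iff.1 he]
    trivial
  · obtain ⟨y, hy, hmin⟩ := hK.exists_isMinOn hne hcont.continuousOn
    have h1 : 0 < m.dl (X t) y := by
      refine lt_of_le_of_ne (m.dl_nonneg _ _) fun h2 => ?_
      have h3 : X t = y := Subtype.ext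
        (m.inj (X t).2 y.2 ((m.dl_def _ _).symm.trans h2.symm))
      exact hy (h3 ▸ hxU)
    filter_upwards [(h t).eventually_lt_const h1] with s hs
    by_contra hcon
    exact absurd (hmin hcon) (not_le.2 hs)

/-- properties of the lifted curve -/
theorem Sub.vv_spec (m : Sub e D l p T) {z₀ z₂ : HV (n + 1)} (h0 : ‖z₀‖ = 1) (h2 : ‖z₂‖ = 1)
    (h : hp z₀ z₂ = 0) {α₀ α₂ : Quaternion ℝ} {y₀ y₂ : HV n}
    (hz₀ : z₀ = rm (e0 n) α₀ + io n y₀) (hz₂ : z₂ = rm (e0 n) α₂ + io n y₂) {t : ℝ}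
    (hα : Real.cos t • α₀ + Real.sin t • α₂ ≠ 0) (hy : Real.cos t • y₀ + Real.sin t • y₂ ≠ 0) :
    ‖Real.cos t • α₀ + Real.sin t • α₂‖ < 1 ∧
    ‖vv (cc D) α₀ α₂ y₀ y₂ t‖ < D ∧ vv (cc D) α₀ α₂ y₀ y₂ t ≠ 0 ∧
      ∃ μ : Quaternion ℝ, ‖μ‖ = 1 ∧ S (cc D) (vv (cc D) α₀ α₂ y₀ y₂ t) = rm (gd z₀ z₂ t) μ := by
  have hgd : gd z₀ z₂ t = rm (e0 n) (Real.cos t • α₀ + Real.sin t • α₂) +
      io n (Real.cos t • y₀ + Real.sin t • y₂) := by
    unfold gd
    rw [hz₀, hz₂, map_add, map_smul, map_smul, smul_add, smul_add, rm_add_right, rm_smul_right,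
      rm_smul_right]
    abel
  have h1 := norm_gd h0 h2 h t
  rw [hgd] at h1
  set α := Real.cos t • α₀ + Real.sin t • α₂ with hαd
  set y := Real.cos t • y₀ + Real.sin t • y₂ with hyd
  have h3 := norm_sq_dec α y
  rw [h1, one_pow] at h3
  have hc := m.cpos
  obtain ⟨h4, h5⟩ := S_log hc hα hy h3.symm
  have hα0 : 0 < ‖α‖ := norm_pos_iff.2 hα
  have hy0 : 0 < ‖y‖ := norm_pos_iff.2 hy
  have hα1 : ‖α‖ < 1 := by nlinarith
  have hv : vv (cc D) α₀ α₂ y₀ y₂ t = FS.lg (cc D) (‖α‖ ^ 2) • rm y (star α) := rfl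
  rw [hv]
  refine ⟨hα1, ?_, ?_, ‖α‖⁻¹ • star α, ?_, ?_⟩
  · rw [h4, div_lt_iff₀ hc, mul_comm D, m.ccD, Real.arccos_lt_pi_div_two]
    exact hα0
  · rw [← norm_ne_zero_iff, h4]
    exact (div_pos (Real.arccos_pos.2 hα1) hc).ne'
  · rw [norm_smul, norm_star, norm_inv, norm_norm, inv_mul_cancel₀ hα0.ne']
  · rw [h5, hgd]

/-- the lifted curve has constant speed -/
theorem Sub.vv_speed (m : Sub e D l p T) {z₀ z₂ : HV (n + 1)} (h0 : ‖z₀‖ = 1) (h2 : ‖z₂‖ = 1)
    (h : hp z₀ z₂ = 0) {α₀ α₂ : Quaternion ℝ} {y₀ y₂ : HV n}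
    (hz₀ : z₀ = rm (e0 n) α₀ + io n y₀) (hz₂ : z₂ = rm (e0 n) α₂ + io n y₂) {t : ℝ}
    (hα : Real.cos t • α₀ + Real.sin t • α₂ ≠ 0) (hy : Real.cos t • y₀ + Real.sin t • y₂ ≠ 0) :
    ContMDiffAt 𝓘(ℝ, ℝ) 𝓘(ℝ, E) 1 (fun s => ee e T (vv (cc D) α₀ α₂ y₀ y₂ s)) t ∧
    nm (E := E) (ee e T (vv (cc D) α₀ α₂ y₀ y₂ t))
      (mfderiv 𝓘(ℝ, ℝ) 𝓘(ℝ, E) (fun s => ee e T (vv (cc D) α₀ α₂ y₀ y₂ s)) t (1 : ℝ)) =
        1 / cc D := by
  have hc := m.cpos
  obtain ⟨h1, h3, h4, μ, hμ, h5⟩ := m.vv_spec h0 h2 h hz₀ hz₂ hα hy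
  have hs := contDiffAt_vv hc.ne' α₀ α₂ y₀ y₂ (norm_pos_iff.2 hα) h1
  generalize hv : vv (cc D) α₀ α₂ y₀ y₂ = v at *
  have hη : HasDerivAt v (deriv v t) t := (hs.differentiableAt (by simp)).hasDerivAt
  obtain ⟨z', h6, h7⟩ := m.speed hη h4 h3
  have h8 : ∀ᶠ s in 𝓝 t, fs (S (cc D) (v t)) (S (cc D) (v s)) = |s - t| := by
    have h9 : ∀ᶠ s : ℝ in 𝓝 t, |t - s| < Real.pi / 2 := by
      have h10 : ContinuousAt (fun s : ℝ => |t - s|) t :=
        (continuous_const.sub continuous_id).abs.continuousAt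
      refine h10.eventually_lt continuousAt_const ?_
      simp [Real.pi_pos]
    filter_upwards [good_open hα hy, h9] with s hs1 hs2
    obtain ⟨-, -, -, ν, hν, h10⟩ := m.vv_spec h0 h2 h hz₀ hz₂ hs1.1 hs1.2
    rw [hv] at h10
    rw [h5, h10, fs_rm_left _ _ hμ, fs_rm_right _ _ hν, fs_gd h0 h2 h hs2.le, abs_sub_comm]
  have h9 := norm_Qp_eq_one (z := fun s => S (cc D) (v s)) (t := t)
    (Eventually.of_forall fun s => norm_S hc.ne' _) h6 h8
  let L : HV n →L[ℝ] TangentSpace 𝓘(ℝ, E) p := T.toContinuousLinearMap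
  have hLη : HasDerivAt (fun s => L (v s)) (T (deriv v t)) t :=
    L.hasFDerivAt.comp_hasDerivAt t hη
  refine ⟨?_, ?_⟩
  · have h10 : ContMDiffAt 𝓘(ℝ, ℝ) 𝓘(ℝ, TangentSpace 𝓘(ℝ, E) p) 1 (fun s => L (v s)) t :=
      (L.contDiff.contDiffAt.comp t
        (hs.of_le (by simp only [WithTop.one_le_coe, le_top]))).contMDiffAt
    exact ((contMDiff_exp_fiber m.rig.facts.isExp p).contMDiffAt.of_le
      (by simp only [WithTop.one_le_coe, le_top])).comp t h10
  · have h10 : (mfderiv 𝓘(ℝ, ℝ) 𝓘(ℝ, E) (fun s => ee e T (v s)) t (1 : ℝ) : E) =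
        dE e p (T (v t) : E) (T (deriv v t) : E) :=
      mfderiv_exp_curve m.rig.facts.isExp p hLη
    have h11 : nm (E := E) (ee e T (v t))
          (mfderiv 𝓘(ℝ, ℝ) 𝓘(ℝ, E) (fun s => ee e T (v s)) t (1 : ℝ)) =
        nm (E := E) (ee e T (v t)) (dE (E := E) e p (T (v t)) (T (deriv v t))) :=
      congrArg (nm (E := E) (ee e T (v t))) h10
    rw [h11, eq_div_iff hc.ne', mul_comm]
    exact h7.symm.trans h9

/-- local estimate for the lifted curve -/
theorem Sub.local_ge (m : Sub e D l p T) {z₀ z₂ : HV (n + 1)} (h0 : ‖z₀‖ = 1) (h2 : ‖z₂‖ = 1)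
    (h : hp z₀ z₂ = 0) {α₀ α₂ : Quaternion ℝ} {y₀ y₂ : HV n}
    (hz₀ : z₀ = rm (e0 n) α₀ + io n y₀) (hz₂ : z₂ = rm (e0 n) α₂ + io n y₂) {X : ℝ → Sg e D T}
    (hX : ∀ t, ∃ μ : Quaternion ℝ, ‖μ‖ = 1 ∧ ZZ e D T (X t) = rm (gd z₀ z₂ t) μ) {t : ℝ}
    (hα : Real.cos t • α₀ + Real.sin t • α₂ ≠ 0) (hy : Real.cos t • y₀ + Real.sin t • y₂ ≠ 0) :
    ∀ᶠ s in 𝓝[>] t, dist (X t : M) (X s) ≤ 1 / cc D * (s - t) := by
  have hc := m.cpos
  have hXv : ∀ s, Real.cos s • α₀ + Real.sin s • α₂ ≠ 0 ∧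
      Real.cos s • y₀ + Real.sin s • y₂ ≠ 0 →
      (X s : M) = ee e T (vv (cc D) α₀ α₂ y₀ y₂ s) := by
    intro s hs
    obtain ⟨-, h3, -, μ, hμ, h5⟩ := m.vv_spec h0 h2 h hz₀ hz₂ hs.1 hs.2
    obtain ⟨ν, hν, h6⟩ := hX s
    obtain ⟨ρ, hρ, h7⟩ := m.phase h3.le
    refine m.inj (X s).2 (mem_Sg h3.le) ?_
    rw [h6, h7, h5, rm_rm, fs_rm_left _ _ hν,
      fs_rm_right _ _ (by rw [norm_mul, hμ, hρ, mul_one]), fs_self (norm_gd h0 h2 h s)]
  obtain ⟨ε, hε, hball⟩ := Metric.eventually_nhds_iff.1 (good_open hα hy)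
  have h3 : ∀ᶠ s in 𝓝[>] t, s < t + ε := nhdsWithin_le_nhds (eventually_lt_nhds (by linarith))
  filter_upwards [h3, self_mem_nhdsWithin] with s hs1 hs2
  have hs2' : t < s := hs2
  have hgood : ∀ r ∈ Icc t s, Real.cos r • α₀ + Real.sin r • α₂ ≠ 0 ∧
      Real.cos r • y₀ + Real.sin r • y₂ ≠ 0 := fun r hr => hball (by
    rw [Real.dist_eq, abs_of_nonneg (by linarith [hr.1])]
    linarith [hr.2])
  rw [hXv t (hgood t (left_mem_Icc.2 hs2'.le)), hXv s (hgood s (right_mem_Icc.2 hs2'.le))]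
  exact symm_dist_le_of_speed (c := fun s => ee e T (vv (cc D) α₀ α₂ y₀ y₂ s)) hs2'.le
    (by positivity)
    (fun r hr => (m.vv_speed h0 h2 h hz₀ hz₂ (hgood r hr).1 (hgood r hr).2).1)
    fun r hr => (m.vv_speed h0 h2 h hz₀ hz₂ (hgood r hr).1 (hgood r hr).2).2.le

end

end Vale.Agent.P231.QO
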