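import Vale.Agent.P231.QO.S6
import Vale.Agent.P231.QF.QF7

/-! P231: the totally geodesic part is isometric to the quaternionic projective space. -/

set_option maxSynthPendingDepth 3
set_option linter.unusedSectionVars false

open Bundle Manifold Set Filter Module
open scoped ContDiff Manifold Topology

namespace Vale.Agent.P231.QO

noncomputable section

open Vale.Agent.P234 Vale.Agent.P231 Vale.Agent.P231.H703 Vale.Agent.P231.H775
  Vale.Agent.P231.H512 Vale.Agent.P231.QF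

variable {E : Type*} [NormedAddCommGroup E] [NormedSpace ℝ E] [FiniteDimensional ℝ E]
  {M : Type*} [MetricSpace M] [ChartedSpace E M]
  [RiemannianBundle (fun x : M => TangentSpace 𝓘(ℝ, E) x)]
  [IsManifold 𝓘(ℝ, E) ∞ M]
  [IsContMDiffRiemannianBundle 𝓘(ℝ, E) ∞ E (fun x : M => TangentSpace 𝓘(ℝ, E) x)]
  {e : ∀ x : M, TangentSpace 𝓘(ℝ, E) x → M}
  [CompactSpace M] [ConnectedSpace M] [IsRiemannianManifold 𝓘(ℝ, E) M]
  {D : ℝ} {l : ℕ} {p : M} {n : ℕ} {T : HV n →ₗᵢ[ℝ] TangentSpace 𝓘(ℝ, E) p}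

theorem Sub.ge_of_lt (m : Sub e D l p T) {x : Sg e D T} (hx : dist p (x : M) < D)
    (y : Sg e D T) : dist (x : M) y ≤ 1 / cc D * m.dl x y := by
  classical
  have hc := m.cpos
  rcases (m.dl_nonneg x y).eq_or_lt with hθ | hθ
  · have h1 : (x : M) = y := m.inj x.2 y.2 ((m.dl_def _ _).symm.trans hθ.symm)
    rw [← hθ, h1, dist_self, mul_zero]
  obtain ⟨z₂, h2, h, μ, hμ, hend⟩ := exists_gd (m.norm_ZZ x) (m.norm_ZZ y)
    (by rw [← m.dl_def]; exact hθ)
  rw [← m.dl_def] at hend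
  set z₀ := ZZ e D T x with hz₀d
  have h0 : ‖z₀‖ = 1 := m.norm_ZZ x
  obtain ⟨α₀, y₀, hz₀⟩ := dec z₀
  obtain ⟨α₂, y₂, hz₂⟩ := dec z₂
  have hX : ∀ t, ∃ x' : Sg e D T, ∃ μ : Quaternion ℝ, ‖μ‖ = 1 ∧
      ZZ e D T x' = rm (gd z₀ z₂ t) μ := fun t => by
    obtain ⟨x', hx', h3⟩ := m.surj (norm_gd h0 h2 h t)
    exact ⟨⟨x', hx'⟩, h3⟩
  choose X hX using hX
  have hdl : ∀ s t, m.dl (X s) (X t) = fs (gd z₀ z₂ s) (gd z₀ z₂ t) := by
    intro s t
    obtain ⟨μ, hμ, h3⟩ := hX s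
    obtain ⟨ν, hν, h4⟩ := hX t
    rw [m.dl_def, h3, h4, fs_rm_left _ _ hμ, fs_rm_right _ _ hν]
  have hX0 : (X 0 : M) = x := by
    obtain ⟨ν, hν, h4⟩ := hX 0
    refine m.inj (X 0).2 x.2 ?_
    have h5 : gd z₀ z₂ 0 = z₀ := by simp [gd]
    rw [h4, h5, fs_rm_left _ _ hν, ← hz₀d, fs_self h0]
  have hXθ : (X (m.dl x y) : M) = y := by
    obtain ⟨ν, hν, h4⟩ := hX (m.dl x y)
    refine m.inj (X _).2 y.2 ?_
    rw [h4, hend, fs_rm_left _ _ hν, fs_rm_left _ _ hμ, fs_self (m.norm_ZZ y)]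
  have hXc : Continuous X := by
    refine m.continuous_of_dl fun t => ?_
    have h3 : Tendsto (fun s : ℝ => |t - s|) (𝓝 t) (𝓝 0) := by
      have h10 : ContinuousAt (fun s : ℝ => |t - s|) t :=
        (continuous_const.sub continuous_id).abs.continuousAt
      have h11 := h10.tendsto
      simp only [sub_self, abs_zero] at h11
      exact h11
    refine h3.congr' ?_
    filter_upwards [h3.eventually_lt_const (show (0 : ℝ) < Real.pi / 2 by positivity)] with s hs
    rw [hdl, fs_gd h0 h2 h hs.le]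
  -- bad times
  have hinn : hp (e0 n) z₀ = α₀ := by
    rw [hz₀, hp_add_right, hp_rm_right, hp_e0_e0, hp_e0_io, one_mul, add_zero]
  have hα₀ : α₀ ≠ 0 := by
    rw [← hinn]
    have h3 : hp (e0 n) z₀ = ((Real.cos (cc D * ‖ll e D T (x : M)‖) : ℝ) : Quaternion ℝ) :=
      hp_e0_S (cc D) _
    rw [h3, m.norm_ll x.2]
    have h4 : 0 < Real.cos (cc D * dist p (x : M)) := by
      refine Real.cos_pos_of_mem_Ioo ⟨?_, ?_⟩
      · have : 0 ≤ cc D * dist p (x : M) := by positivity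
        linarith [Real.pi_pos]
      · rw [← m.ccD]
        exact mul_lt_mul_of_pos_left hx hc
    rw [← norm_pos_iff, Quaternion.norm_coe, Real.norm_of_nonneg h4.le]
    exact h4
  have hθle : m.dl x y ≤ Real.pi / 2 := by
    rw [m.dl_def]
    exact fs_le _ _
  have hK : Set.Subsingleton {t : ℝ | t ∈ Icc (0 : ℝ) (m.dl x y) ∧
      Real.cos t • α₀ + Real.sin t • α₂ = 0} :=
    FS.subsing_of_not_lt fun t₁ t₂ h3 h4 h5 => by
      have e1 := h3.2
      have e2 := h4.2
      have h6 : Real.sin (t₂ - t₁) • α₀ = 0 := by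
        have h7 : Real.sin t₂ • (Real.cos t₁ • α₀ + Real.sin t₁ • α₂) -
            Real.sin t₁ • (Real.cos t₂ • α₀ + Real.sin t₂ • α₂) = 0 := by
          rw [e1, e2, smul_zero, smul_zero, sub_zero]
        rw [← h7, Real.sin_sub]
        module
      have h8 : 0 < Real.sin (t₂ - t₁) := Real.sin_pos_of_pos_of_lt_pi (sub_pos.2 h5) (by
        linarith [h3.1.1, h4.1.2, Real.pi_pos])
      rcases smul_eq_zero.1 h6 with h9 | h9
      · exact h8.ne' h9
      · exact hα₀ h9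
  have hP : Set.Subsingleton {t : ℝ | t ∈ Icc (0 : ℝ) (m.dl x y) ∧
      Real.cos t • y₀ + Real.sin t • y₂ = 0} :=
    FS.subsing_of_not_lt fun t₁ t₂ h3 h4 h5 => by
      have hg : ∀ t, Real.cos t • y₀ + Real.sin t • y₂ = 0 →
          gd z₀ z₂ t = rm (e0 n) (Real.cos t • α₀ + Real.sin t • α₂) := by
        intro t ht
        rw [gd_dec hz₀ hz₂, ht, map_zero, add_zero]
      have h6 : ∀ t, Real.cos t • y₀ + Real.sin t • y₂ = 0 →
          ‖Real.cos t • α₀ + Real.sin t • α₂‖ = 1 := by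
        intro t ht
        have h7 := norm_gd h0 h2 h t
        rw [hg t ht, norm_rm, norm_e0, one_mul] at h7
        exact h7
      have h7 := fs_gd h0 h2 h (s := t₁) (t := t₂) (by
        rw [abs_sub_comm, abs_of_pos (sub_pos.2 h5)]
        linarith [h3.1.1, h4.1.2])
      rw [hg t₁ h3.2, hg t₂ h4.2, fs_rm_left _ _ (h6 t₁ h3.2), fs_rm_right _ _ (h6 t₂ h4.2),
        fs_self norm_e0, abs_sub_comm, abs_of_pos (sub_pos.2 h5)] at h7
      linarith
  have hfin := hK.finite.union hP.finite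
  have hcont : Continuous fun q : ℝ × ℝ => dist (X q.1 : M) (X q.2) :=
    (continuous_subtype_val.comp (hXc.comp continuous_fst)).dist
      (continuous_subtype_val.comp (hXc.comp continuous_snd))
  have h3 := FS.lip_finite (δ := fun s t => dist (X s : M) (X t)) (C := 1 / cc D) (a := 0)
    (b := m.dl x y) hfin.toFinset hθ.le (fun t => dist_self _)
    (fun r s t => dist_triangle _ _ _) hcont
    (fun t ht htB C' hC' => by
      rw [Set.Finite.mem_toFinset, Set.mem_union, not_or] at htB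
      have ht' : t ∈ Icc (0 : ℝ) (m.dl x y) := ⟨ht.1.le, ht.2.le⟩
      have hα : Real.cos t • α₀ + Real.sin t • α₂ ≠ 0 := fun h => htB.1 ⟨ht', h⟩
      have hy : Real.cos t • y₀ + Real.sin t • y₂ ≠ 0 := fun h => htB.2 ⟨ht', h⟩
      filter_upwards [m.local_ge h0 h2 h hz₀ hz₂ hX hα hy, self_mem_nhdsWithin] with s h4 h5
      exact h4.trans (mul_le_mul_of_nonneg_right hC'.le (sub_pos.2 h5).le))
  rw [sub_zero, hX0, hXθ] at h3
  exact h3

theorem Sub.ge (m : Sub e D l p T) (x y : Sg e D T) :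
    dist (x : M) y ≤ 1 / cc D * m.dl x y :=
  m.of_lt (Q := fun x => dist (x : M) y ≤ 1 / cc D * m.dl x y)
    (isClosed_le (continuous_subtype_val.dist continuous_const)
      (continuous_const.mul (m.continuous_dl.comp (continuous_id.prodMk continuous_const))))
    (fun _ hx => m.ge_of_lt hx y) x

/-- distances in the part -/
theorem Sub.dist_eq (m : Sub e D l p T) (x y : Sg e D T) :
    dist (x : M) y = 2 * D / Real.pi * m.dl x y := by
  have hc := m.cpos
  have h2 : 1 / cc D = 2 * D / Real.pi := by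
    unfold cc
    rw [one_div_div]
  rw [← h2]
  refine le_antisymm (m.ge x y) ?_
  have h3 := m.le x y
  rw [one_div, inv_mul_le_iff₀ hc]
  exact h3

/-- **distances in the part, in normal coordinates** -/
theorem Sub.dist_ee_ee (m : Sub e D l p T) {v w : HV n} (hv : ‖v‖ ≤ D) (hw : ‖w‖ ≤ D) :
    dist (e p (T v)) (e p (T w)) =
      2 * D / Real.pi * Real.arccos ‖hp (S (cc D) v) (S (cc D) w)‖ := by
  have h1 := m.dist_eq ⟨ee e T v, mem_Sg hv⟩ ⟨ee e T w, mem_Sg hw⟩
  rw [m.dl_def, m.fs_eq hv hw] at h1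
  exact h1

end

end Vale.Agent.P231.QO
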