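import Vale.Agent.P231.QO.S7

/-! P231: the law of cosines of the totally geodesic part. -/

set_option maxSynthPendingDepth 3
set_option linter.unusedSectionVars false

open Bundle Manifold Set Filter Module
open scoped ContDiff Manifold Topology

namespace Vale.Agent.P231.QO

noncomputable section

open Vale.Agent.P234 Vale.Agent.P231 Vale.Agent.P231.H703 Vale.Agent.P231.H775
  Vale.Agent.P231.H512 Vale.Agent.P231.QF

section pure

variable {n : ℕ}

theorem hp_S_S (c : ℝ) (v w : HV n) : hp (S c v) (S c w) =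
    ((Real.cos (c * ‖v‖) * Real.cos (c * ‖w‖) : ℝ) : Quaternion ℝ) +
      ((c * Real.sinc (c * ‖v‖)) * (c * Real.sinc (c * ‖w‖))) • hp v w := by
  unfold S
  rw [hp_add_left, hp_add_right, hp_add_right, hp_smul_left, hp_smul_left, hp_smul_left,
    hp_smul_left, hp_smul_right, hp_smul_right, hp_smul_right, hp_smul_right, hp_e0_e0, hp_e0_io,
    hp_io_e0, hp_io_io, smul_zero, smul_zero, smul_zero, smul_zero, add_zero, zero_add, smul_smul,
    smul_smul, smul_one_q]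

theorem norm_coe_add_sq (r : ℝ) (q : Quaternion ℝ) :
    ‖(r : Quaternion ℝ) + q‖ ^ 2 = r ^ 2 + 2 * r * q.re + ‖q‖ ^ 2 := by
  rw [pow_two, ← Quaternion.normSq_eq_norm_mul_self, pow_two ‖q‖,
    ← Quaternion.normSq_eq_norm_mul_self, Quaternion.normSq_def', Quaternion.normSq_def']
  simp only [Quaternion.re_add, Quaternion.imI_add, Quaternion.imJ_add, Quaternion.imK_add,
    Quaternion.re_coe, Quaternion.imI_coe, Quaternion.imJ_coe, Quaternion.imK_coe]
  ring

/-- the law of cosines as a function of the lengths `r`, `s`, the inner product `i` and the square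
`N` of the quaternionic (octonionic) inner product -/
def KK (c r s i N : ℝ) : ℝ :=
  (Real.cos (c * r) * Real.cos (c * s)) ^ 2 +
    2 * (Real.cos (c * r) * Real.cos (c * s)) *
      ((c * Real.sinc (c * r)) * (c * Real.sinc (c * s))) * i +
    ((c * Real.sinc (c * r)) * (c * Real.sinc (c * s))) ^ 2 * N

theorem norm_hp_S_S (c : ℝ) (v w : HV n) : ‖hp (S c v) (S c w)‖ ^ 2 =
    KK c ‖v‖ ‖w‖ (inner ℝ v w) (‖hp v w‖ ^ 2) := by
  set a := (c * Real.sinc (c * ‖v‖)) * (c * Real.sinc (c * ‖w‖)) with ha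
  set b := Real.cos (c * ‖v‖) * Real.cos (c * ‖w‖) with hb
  have h1 : (a • hp v w).re = a * inner ℝ v w := by
    rw [Quaternion.re_smul, hp_re, smul_eq_mul]
  have h2 : ‖a • hp v w‖ ^ 2 = a ^ 2 * ‖hp v w‖ ^ 2 := by
    rw [norm_smul, mul_pow, Real.norm_eq_abs, sq_abs]
  rw [hp_S_S, ← ha, ← hb, norm_coe_add_sq, h1, h2]
  unfold KK
  rw [← ha, ← hb]
  ring

end pure

variable {E : Type*} [NormedAddCommGroup E] [NormedSpace ℝ E] [FiniteDimensional ℝ E]
  {M : Type*} [MetricSpace M] [ChartedSpace E M]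
  [RiemannianBundle (fun x : M => TangentSpace 𝓘(ℝ, E) x)]
  [IsManifold 𝓘(ℝ, E) ∞ M]
  [IsContMDiffRiemannianBundle 𝓘(ℝ, E) ∞ E (fun x : M => TangentSpace 𝓘(ℝ, E) x)]
  {e : ∀ x : M, TangentSpace 𝓘(ℝ, E) x → M}
  [CompactSpace M] [ConnectedSpace M] [IsRiemannianManifold 𝓘(ℝ, E) M]
  {D : ℝ} {l : ℕ} {p : M} {n : ℕ} {T : HV n →ₗᵢ[ℝ] TangentSpace 𝓘(ℝ, E) p}

/-- **the law of cosines** -/
theorem Sub.cosines (m : Sub e D l p T) {v w : HV n} (hv : ‖v‖ ≤ D) (hw : ‖w‖ ≤ D) :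
    dist (e p (T v)) (e p (T w)) =
      2 * D / Real.pi * Real.arccos √(KK (cc D) ‖v‖ ‖w‖ (inner ℝ v w) (‖hp v w‖ ^ 2)) := by
  rw [m.dist_ee_ee hv hw, ← norm_hp_S_S, Real.sqrt_sq (norm_nonneg _)]

end

end Vale.Agent.P231.QO
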