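import Vale.Agent.P231.QO.T7
import Vale.Agent.P231.QO.Prj
import Vale.Agent.P231.QO.Frm

/-! P231: octonionic coordinates adapted to two given tangent vectors. -/

set_option maxSynthPendingDepth 3
set_option linter.unusedSectionVars false

open Bundle Manifold Set Filter Module
open scoped ContDiff Manifold Topology ENNReal

namespace Vale.Agent.P231.QO

noncomputable section

open Vale.Agent.P234 Vale.Agent.P231 Vale.Agent.P231.H703 Vale.Agent.P231.H775
  Vale.Agent.P231.H512 Vale.Agent.P231.QF Vale.Agent.P231.WR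

section pure

variable {W : Type*} [NormedAddCommGroup W] [InnerProductSpace ℝ W]

/-- the quadratic form determines the projections, abstract form -/
theorem prj_abs {T : W ≃ₗᵢ[ℝ] OV} {v : W} {g : W → W} (h1 : ∀ b c, g (b + c) = g b + g c)
    (h2 : ∀ b c, (inner ℝ (g b) c : ℝ) = inner ℝ b (g c)) (h3 : ∀ b, g (g b) = g b)
    (h : ∀ w, (inner ℝ v w : ℝ) ^ 2 + ‖g w‖ ^ 2 = lin' (T v) (T w)) (w : W) :
    T ((inner ℝ v w : ℝ) • v + g w) = prj (T v) (T w) := by
  have h4 : ∀ b, (inner ℝ (g b) b : ℝ) = ‖g b‖ ^ 2 := by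
    intro b
    rw [← real_inner_self_eq_norm_sq, h2 b (g b), h3, real_inner_comm]
  have key := polar (V := OV)
    (G := fun z => T ((inner ℝ v (T.symm z) : ℝ) • v + g (T.symm z)))
    (H := prj (T v))
    (fun x y => by
      show T ((inner ℝ v (T.symm (x + y)) : ℝ) • v + g (T.symm (x + y))) =
        T ((inner ℝ v (T.symm x) : ℝ) • v + g (T.symm x)) +
        T ((inner ℝ v (T.symm y) : ℝ) • v + g (T.symm y))
      rw [map_add T.symm x y, h1, inner_add_right, add_smul, ← map_add T _ _]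
      congr 1
      abel)
    (fun x y => by
      show (inner ℝ (T ((inner ℝ v (T.symm x) : ℝ) • v + g (T.symm x))) y : ℝ) =
        inner ℝ x (T ((inner ℝ v (T.symm y) : ℝ) • v + g (T.symm y)))
      obtain ⟨a, rfl⟩ : ∃ a, x = T a := ⟨T.symm x, (T.apply_symm_apply x).symm⟩
      obtain ⟨b, rfl⟩ : ∃ b, y = T b := ⟨T.symm y, (T.apply_symm_apply y).symm⟩
      rw [T.inner_map_map, T.inner_map_map, T.symm_apply_apply, T.symm_apply_apply,
        inner_add_left, inner_add_right, real_inner_smul_left, real_inner_smul_right,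
        h2 a b, real_inner_comm v a]
      ring)
    (prj_add _) (inner_prj_symm _)
    (fun x => by
      show (inner ℝ (T ((inner ℝ v (T.symm x) : ℝ) • v + g (T.symm x))) x : ℝ) =
        inner ℝ (prj (T v) x) x
      obtain ⟨a, rfl⟩ : ∃ a, x = T a := ⟨T.symm x, (T.apply_symm_apply x).symm⟩
      rw [T.inner_map_map, T.symm_apply_apply, inner_prj_self, ← h a, inner_add_left,
        real_inner_smul_left, h4]
      ring) (T w)
  simp only [T.symm_apply_apply] at key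
  exact key

/-- combinations of the vectors of an adapted frame are quaternionic -/
theorem mem_emb_frame (a b c : ℝ) :
    cv (a • ov o1 0 + b • ov (oc ⟨0, 1, 0, 0⟩ 0) 0 + c • ov 0 o1) ∈ range emb := by
  refine kvL_fix.1 (ov_ext (kpL_fix.2 ?_) (kpL_fix.2 ?_))
  · show -(a • (0 : Quaternion ℝ) + b • (0 : Quaternion ℝ) + c • (0 : Quaternion ℝ)) = 0
    rw [smul_zero, smul_zero, smul_zero, add_zero, add_zero, neg_zero]
  · show -(a • (0 : Quaternion ℝ) + b • (0 : Quaternion ℝ) + c • (0 : Quaternion ℝ)) = 0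
    rw [smul_zero, smul_zero, smul_zero, add_zero, add_zero, neg_zero]

/-- combinations of the vectors of an adapted frame are quaternionic -/
theorem mem_frame {T : W ≃ₗᵢ[ℝ] OV} {u u₁ u₂ : W} (t0 : T u = ov o1 0)
    (t1 : T u₁ = ov (oc ⟨0, 1, 0, 0⟩ 0) 0) (t2 : T u₂ = ov 0 o1) (a b c : ℝ) :
    (T.trans cv) (a • u + b • u₁ + c • u₂) ∈ range emb := by
  have h : (T.trans cv) (a • u + b • u₁ + c • u₂) =
      cv (a • ov o1 0 + b • ov (oc ⟨0, 1, 0, 0⟩ 0) 0 + c • ov 0 o1) := by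
    show cv (T (a • u + b • u₁ + c • u₂)) = _
    rw [map_add T, map_add T, map_smul T, map_smul T, map_smul T, t0, t1, t2]
  rw [h]
  exact mem_emb_frame a b c

theorem lin_trans (T : W ≃ₗᵢ[ℝ] OV) (v w : W) :
    lin' ((T.trans cv) v) ((T.trans cv) w) = lin (T v) (T w) := lin_cv _ _

end pure

variable {E : Type*} [NormedAddCommGroup E] [NormedSpace ℝ E] [FiniteDimensional ℝ E]
  {M : Type*} [MetricSpace M] [ChartedSpace E M]
  [RiemannianBundle (fun x : M => TangentSpace 𝓘(ℝ, E) x)]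
  [IsManifold 𝓘(ℝ, E) ∞ M]
  [IsContMDiffRiemannianBundle 𝓘(ℝ, E) ∞ E (fun x : M => TangentSpace 𝓘(ℝ, E) x)]
  {e : ∀ x : M, TangentSpace 𝓘(ℝ, E) x → M}
  [CompactSpace M] [ConnectedSpace M] [IsRiemannianManifold 𝓘(ℝ, E) M]

/-- the quadratic form determines the projections -/
theorem prj_of {D : ℝ} {l : ℕ} {p : M} {P : E → E →ₗ[ℝ] E} (hP : PData e D l p P)
    {T : TangentSpace 𝓘(ℝ, E) p ≃ₗᵢ[ℝ] OV} {v : TangentSpace 𝓘(ℝ, E) p} (hv : ‖v‖ = 1)
    (h : ∀ w : TangentSpace 𝓘(ℝ, E) p,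
      (inner ℝ v w : ℝ) ^ 2 + ‖tof p (P (v : E) (w : E))‖ ^ 2 = lin' (T v) (T w))
    (w : TangentSpace 𝓘(ℝ, E) p) :
    T ((inner ℝ v w : ℝ) • v + tof p (P (v : E) (w : E))) = prj (T v) (T w) :=
  prj_abs (W := TangentSpace 𝓘(ℝ, E) p) (T := T) (v := v)
    (g := fun w => tof p (P (v : E) (w : E)))
    (fun b c => congrArg (tof p) (map_add (P (v : E)) (b : E) (c : E)))
    (fun b c => hP.symm (v : E) (b : E) (c : E) hv)
    (fun b => congrArg (tof p) (hP.idem (v : E) (b : E) hv)) h w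

/-- **octonionic coordinates of the tangent space adapted to two vectors** -/
theorem exists_T8 {D : ℝ} (R : Rig e D 7) {P : ∀ _ : M, E → E →ₗ[ℝ] E}
    (hP : ∀ x, PData e D 7 x (P x)) (hdim : finrank ℝ E = 16) (p : M)
    (v w : TangentSpace 𝓘(ℝ, E) p) :
    ∃ T : TangentSpace 𝓘(ℝ, E) p ≃ₗᵢ[ℝ] OV, T v ∈ range emb ∧ T w ∈ range emb ∧
      ∀ v w : TangentSpace 𝓘(ℝ, E) p, ‖v‖ = 1 →
        T ((inner ℝ v w : ℝ) • v + tof p (P p (v : E) (w : E))) = prj (T v) (T w) := by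
  have hV : finrank ℝ (Eu E) = 16 := by rw [finrank_euclideanSpace_fin, hdim]
  have hin : ∀ v w : Eu E, ip (E := E) p (fr p v) (fr p w) = inner ℝ v w := ip_fr p
  obtain ⟨u, u₁, u₂, ⟨n0, n1, n2⟩, ⟨i1, q1, i2, q2⟩, a, b₀, b₁, b₂, hv, hw⟩ :=
    exists_frame (V := Eu E) (n := 16) (k := 7) hV (by norm_num) (by norm_num)
      (Q := trP p (P p)) (fun u hu w => (hP p).sph_idem hu w)
      (fun u hu w w' => (hP p).sph_symm hu w w') (fun u hu w => (hP p).sph_perp hu w)
      (fun u hu => (hP p).sph_rank hu) ((fr (E := E) p).symm v) ((fr (E := E) p).symm w)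
  have hn : ∀ z : Eu E, ‖z‖ = 1 → nm (E := E) p (fr p z) = 1 := fun z hz => by rw [nm_fr, hz]
  have m1 : P p (fr p u) (fr p u₁) = fr p u₁ := by rw [← sph_fr_trP, q1]
  have m2 : P p (fr p u) (fr p u₂) = 0 := by rw [← sph_fr_trP, q2, map_zero]
  obtain ⟨T, t0, t1, t2, t3⟩ := exists_T7 R hP hdim p (u := fr (E := E) p u)
    (u₁ := fr (E := E) p u₁) (u₂ := fr (E := E) p u₂) (hn u n0) (hn u₁ n1) (hn u₂ n2)
    ((hin u u₁).trans i1) m1 ((hin u u₂).trans i2) m2
  have hv' : v = a • (tof p (fr (E := E) p u)) + (0 : ℝ) • (tof p (fr (E := E) p u₁)) +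
      (0 : ℝ) • (tof p (fr (E := E) p u₂)) := by
    have h1 : fr (E := E) p ((fr (E := E) p).symm v) = v := (fr (E := E) p).apply_symm_apply v
    have h2 : fr (E := E) p (a • u) = a • fr (E := E) p u + (0 : ℝ) • fr (E := E) p u₁ +
        (0 : ℝ) • fr (E := E) p u₂ := by
      rw [map_smul, zero_smul, zero_smul, add_zero, add_zero]
    rw [← hv] at h2
    exact h1.symm.trans h2
  have hw' : w = b₀ • (tof p (fr (E := E) p u)) + b₁ • (tof p (fr (E := E) p u₁)) +
      b₂ • (tof p (fr (E := E) p u₂)) := by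
    have h1 : fr (E := E) p ((fr (E := E) p).symm w) = w := (fr (E := E) p).apply_symm_apply w
    have h2 : fr (E := E) p (b₀ • u + b₁ • u₁ + b₂ • u₂) =
        b₀ • fr (E := E) p u + b₁ • fr (E := E) p u₁ + b₂ • fr (E := E) p u₂ := by
      rw [map_add, map_add, map_smul, map_smul, map_smul]
    rw [← hw] at h2
    exact h1.symm.trans h2
  refine ⟨T.trans cv, ?_, ?_, fun v w hv => ?_⟩
  · rw [hv']
    exact mem_frame (W := TangentSpace 𝓘(ℝ, E) p) t0 t1 t2 _ _ _
  · rw [hw']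
    exact mem_frame (W := TangentSpace 𝓘(ℝ, E) p) t0 t1 t2 _ _ _
  · exact prj_of (hP p) hv (fun w => (t3 v w hv).trans
      (lin_trans (W := TangentSpace 𝓘(ℝ, E) p) T v w).symm) w

end

end Vale.Agent.P231.QO
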