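import Vale.Agent.P231.QO.SO
import Vale.Agent.P231.QO.T8

/-! P231: the totally geodesic quaternionic planes of a Blaschke manifold of model volume and cut
multiplicity seven. -/

set_option maxSynthPendingDepth 3
set_option linter.unusedSectionVars false

open Bundle Manifold Set Filter Module
open scoped ContDiff Manifold Topology

namespace Vale.Agent.P231.QO

noncomputable section

open Vale.Agent.P234 Vale.Agent.P231 Vale.Agent.P231.H703 Vale.Agent.P231.H775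
  Vale.Agent.P231.H512 Vale.Agent.P231.QF

section pure

variable {W : Type*} [NormedAddCommGroup W] [InnerProductSpace ℝ W]

/-- the quaternionic part, in the coordinates `T` -/
def TH (T : W ≃ₗᵢ[ℝ] OV) : HV 2 →ₗᵢ[ℝ] W := T.symm.toLinearIsometry.comp emb

theorem TH_apply (T : W ≃ₗᵢ[ℝ] OV) (a : HV 2) : TH T a = T.symm (emb a) := rfl

theorem T_TH (T : W ≃ₗᵢ[ℝ] OV) (a : HV 2) : T (TH T a) = emb a := T.apply_symm_apply _

/-- the involution, in the coordinates `T` -/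
def LL (T : W ≃ₗᵢ[ℝ] OV) : W →ₗ[ℝ] W :=
  T.symm.toLinearEquiv.toLinearMap ∘ₗ kvL ∘ₗ T.toLinearEquiv.toLinearMap

theorem LL_apply (T : W ≃ₗᵢ[ℝ] OV) (v : W) : LL T v = T.symm (kvL (T v)) := rfl

theorem T_LL (T : W ≃ₗᵢ[ℝ] OV) (v : W) : T (LL T v) = kvL (T v) := T.apply_symm_apply _

theorem kvL_kvL (z : OV) : kvL (kvL z) = z := by
  have h : ∀ x : Oc, kpL (kpL x) = x := fun x => oc_ext rfl (neg_neg x.snd)
  exact ov_ext (h _) (h _)

theorem LL_LL (T : W ≃ₗᵢ[ℝ] OV) (v : W) : LL T (LL T v) = v :=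
  T.injective (by rw [T_LL, T_LL, kvL_kvL])

theorem inner_LL (T : W ≃ₗᵢ[ℝ] OV) (v w : W) : (inner ℝ (LL T v) (LL T w) : ℝ) = inner ℝ v w := by
  rw [← T.inner_map_map, T_LL, T_LL, inner_kvL, T.inner_map_map]

theorem norm_LL (T : W ≃ₗᵢ[ℝ] OV) (v : W) : ‖LL T v‖ = ‖v‖ := by
  rw [← T.norm_map, T_LL, norm_kvL, T.norm_map]

theorem LL_fix (T : W ≃ₗᵢ[ℝ] OV) {v : W} : LL T v = v ↔ v ∈ range (TH T) := by
  rw [← T.injective.eq_iff, T_LL, kvL_fix]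
  constructor
  · rintro ⟨a, ha⟩
    exact ⟨a, T.injective (by rw [T_TH, ha])⟩
  · rintro ⟨a, rfl⟩
    exact ⟨a, (T_TH T a).symm⟩

/-- the intertwining, abstract form -/
theorem LL_abs (T : W ≃ₗᵢ[ℝ] OV) {v w g g' : W}
    (h : T ((inner ℝ v w : ℝ) • v + g) = prj (T v) (T w))
    (h' : T ((inner ℝ (LL T v) (LL T w) : ℝ) • LL T v + g') = prj (T (LL T v)) (T (LL T w))) :
    g' = LL T g := by
  have h1 : T ((inner ℝ v w : ℝ) • LL T v + g') = T ((inner ℝ v w : ℝ) • LL T v + LL T g) := by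
    rw [← map_smul (LL T), ← map_add (LL T), T_LL, h, ← prj_kvL, ← T_LL, ← T_LL, ← h',
      inner_LL, map_smul]
  exact add_left_cancel (T.injective h1)

end pure

variable {E : Type*} [NormedAddCommGroup E] [NormedSpace ℝ E] [FiniteDimensional ℝ E]
  {M : Type*} [MetricSpace M] [ChartedSpace E M]
  [RiemannianBundle (fun x : M => TangentSpace 𝓘(ℝ, E) x)]
  [IsManifold 𝓘(ℝ, E) ∞ M]
  [IsContMDiffRiemannianBundle 𝓘(ℝ, E) ∞ E (fun x : M => TangentSpace 𝓘(ℝ, E) x)]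
  {e : ∀ x : M, TangentSpace 𝓘(ℝ, E) x → M}
  [CompactSpace M] [ConnectedSpace M] [IsRiemannianManifold 𝓘(ℝ, E) M]

/-- the coordinates identify the projections with the octonionic ones -/
def CT (P : ∀ _ : M, E → E →ₗ[ℝ] E) (p : M) (T : TangentSpace 𝓘(ℝ, E) p ≃ₗᵢ[ℝ] OV) : Prop :=
  ∀ v w : TangentSpace 𝓘(ℝ, E) p, ‖v‖ = 1 →
    T ((inner ℝ v w : ℝ) • v + tof p (P p (v : E) (w : E))) = prj (T v) (T w)

variable {D : ℝ} {P : ∀ _ : M, E → E →ₗ[ℝ] E} {p : M} {T : TangentSpace 𝓘(ℝ, E) p ≃ₗᵢ[ℝ] OV}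

theorem CT.tau (R : Rig e D 7) (hP : ∀ x, PData e D 7 x (P x)) (hT : CT P p T) :
    ∃ τ : M ≃ᵢ M, ∀ v : TangentSpace 𝓘(ℝ, E) p, τ (e p v) = e p (LL T v) := by
  let L : E ≃ₗ[ℝ] E := LinearEquiv.ofInvolutive (LL (W := TangentSpace 𝓘(ℝ, E) p) T)
    (LL_LL (W := TangentSpace 𝓘(ℝ, E) p) T)
  obtain ⟨τ, hτ⟩ := iso_of_PData R.facts R.facts R.pos R.inj R.inj R.diam R.diam R.closed
    R.closed R.pl R.pl hP hP R.symm R.symm (p := p) (p' := p) L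
    (fun v w => inner_LL (W := TangentSpace 𝓘(ℝ, E) p) T v w)
    (fun u w hu => by
      have h1 : ‖tof p u‖ = 1 := hu
      have h2 := hT (tof p u) (tof p w) h1
      have h3 := hT (LL (W := TangentSpace 𝓘(ℝ, E) p) T (tof p u))
        (LL (W := TangentSpace 𝓘(ℝ, E) p) T (tof p w))
        ((norm_LL (W := TangentSpace 𝓘(ℝ, E) p) T (tof p u)).trans h1)
      exact LL_abs (W := TangentSpace 𝓘(ℝ, E) p) T h2 h3)
  exact ⟨τ, hτ⟩

/-- the quaternionic plane -/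
theorem CT.sub (R : Rig e D 7) (hP : ∀ x, PData e D 7 x (P x)) (hT : CT P p T) :
    Sub e D 7 p (TH (W := TangentSpace 𝓘(ℝ, E) p) T) := by
  obtain ⟨τ, hτ⟩ := hT.tau R hP
  refine ⟨R, ⟨P, hP, fun u w hu => ?_⟩, τ, LL (W := TangentSpace 𝓘(ℝ, E) p) T, hτ,
    norm_LL (W := TangentSpace 𝓘(ℝ, E) p) T, fun v => LL_fix (W := TangentSpace 𝓘(ℝ, E) p) T⟩
  have h1 : ‖TH (W := TangentSpace 𝓘(ℝ, E) p) T u‖ = 1 :=
    ((TH (W := TangentSpace 𝓘(ℝ, E) p) T).norm_map u).trans hu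
  have h2 := hT (TH (W := TangentSpace 𝓘(ℝ, E) p) T u) (TH (W := TangentSpace 𝓘(ℝ, E) p) T w) h1
  have h3 : (inner ℝ (TH (W := TangentSpace 𝓘(ℝ, E) p) T u)
      (TH (W := TangentSpace 𝓘(ℝ, E) p) T w) : ℝ) = inner ℝ u w :=
    (TH (W := TangentSpace 𝓘(ℝ, E) p) T).inner_map_map u w
  rw [h3] at h2
  apply T.injective
  rw [h2]
  have h4 : T (TH (W := TangentSpace 𝓘(ℝ, E) p) T u) = emb u :=
    T_TH (W := TangentSpace 𝓘(ℝ, E) p) T u
  have h5 : T (TH (W := TangentSpace 𝓘(ℝ, E) p) T w) = emb w :=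
    T_TH (W := TangentSpace 𝓘(ℝ, E) p) T w
  have h6 : T (TH (W := TangentSpace 𝓘(ℝ, E) p) T (rm u (hp u w))) = emb (rm u (hp u w)) :=
    T_TH (W := TangentSpace 𝓘(ℝ, E) p) T _
  rw [h4, h5, h6, prj_emb]

/-- the law of cosines in the quaternionic plane -/
theorem CT.cosines (R : Rig e D 7) (hP : ∀ x, PData e D 7 x (P x)) (hT : CT P p T)
    {v w : TangentSpace 𝓘(ℝ, E) p} (hv : ‖v‖ ≤ D) (hw : ‖w‖ ≤ D) (hv' : T v ∈ range emb)
    (hw' : T w ∈ range emb) : dist (e p v) (e p w) = 2 * D / Real.pi * Real.arccos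
      √(KK (cc D) ‖v‖ ‖w‖ (inner ℝ v w) (lin' (T v) (T w))) := by
  obtain ⟨a, ha⟩ := hv'
  obtain ⟨b, hb⟩ := hw'
  have e1 : v = TH (W := TangentSpace 𝓘(ℝ, E) p) T a :=
    T.injective (ha.symm.trans (T_TH (W := TangentSpace 𝓘(ℝ, E) p) T a).symm)
  have e2 : w = TH (W := TangentSpace 𝓘(ℝ, E) p) T b :=
    T.injective (hb.symm.trans (T_TH (W := TangentSpace 𝓘(ℝ, E) p) T b).symm)
  have n1 : ‖v‖ = ‖a‖ := by
    rw [e1]
    exact (TH (W := TangentSpace 𝓘(ℝ, E) p) T).norm_map a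
  have n2 : ‖w‖ = ‖b‖ := by
    rw [e2]
    exact (TH (W := TangentSpace 𝓘(ℝ, E) p) T).norm_map b
  have i1 : (inner ℝ v w : ℝ) = inner ℝ a b := by
    rw [e1, e2]
    exact (TH (W := TangentSpace 𝓘(ℝ, E) p) T).inner_map_map a b
  have h1 := (hT.sub R hP).cosines (v := a) (w := b) (n1 ▸ hv) (n2 ▸ hw)
  rw [← e1, ← e2] at h1
  rw [h1, n1, n2, i1, ← ha, ← hb, lin'_emb]

/-- the quadratic forms do not depend on the coordinates -/
theorem CT.lin_eq {T' : TangentSpace 𝓘(ℝ, E) p ≃ₗᵢ[ℝ] OV} (hT : CT P p T) (hT' : CT P p T')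
    (v w : TangentSpace 𝓘(ℝ, E) p) : lin' (T v) (T w) = lin' (T' v) (T' w) := by
  have key : ∀ u : TangentSpace 𝓘(ℝ, E) p, ‖u‖ = 1 → lin' (T u) (T w) = lin' (T' u) (T' w) := by
    intro u hu
    rw [← inner_prj_self, ← inner_prj_self, ← hT u w hu, ← hT' u w hu, T.inner_map_map,
      T'.inner_map_map]
  have hz : ∀ z : OV, lin' 0 z = 0 := fun z => by
    have h1 := lin'_smul_left 0 0 z
    rw [zero_smul] at h1
    rw [h1]
    ring
  rcases eq_or_ne v 0 with h | h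
  · rw [h, map_zero, map_zero, hz, hz]
  · have h0 : ‖v‖ ≠ 0 := norm_ne_zero_iff.2 h
    have h1 : ‖‖v‖⁻¹ • v‖ = 1 := by
      rw [norm_smul, norm_inv, norm_norm, inv_mul_cancel₀ h0]
    have h2 := key _ h1
    rw [map_smul, map_smul, lin'_smul_left, lin'_smul_left] at h2
    exact mul_left_cancel₀ (pow_ne_zero 2 (inv_ne_zero h0)) h2

/-- **the law of cosines** -/
theorem CT.law (R : Rig e D 7) (hdim : finrank ℝ E = 16) (hP : ∀ x, PData e D 7 x (P x))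
    (hT : CT P p T) {v w : TangentSpace 𝓘(ℝ, E) p} (hv : ‖v‖ ≤ D) (hw : ‖w‖ ≤ D) :
    dist (e p v) (e p w) = 2 * D / Real.pi * Real.arccos
      √(KK (cc D) ‖v‖ ‖w‖ (inner ℝ v w) (lin' (T v) (T w))) := by
  obtain ⟨T', h1, h2, h3⟩ := exists_T8 R hP hdim p v w
  have hT' : CT P p T' := h3
  rw [hT.lin_eq hT']
  exact hT'.cosines R hP hv hw h1 h2

end

end Vale.Agent.P231.QO
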