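import Vale.Agent.P231.QO.Alb
import Vale.Agent.P231.QO.Prj
import Vale.Agent.P231.QO.S8

/-! P231: the law of cosines of the octonionic projective plane. -/

set_option maxSynthPendingDepth 3
set_option linter.unusedSectionVars false

open Module Set

namespace Vale.Agent.P231.QO

noncomputable section

open Vale.Agent.P231.QF

theorem lin_smul (a b : ℝ) (z w : OV) : lin (a • z) (b • w) = a ^ 2 * b ^ 2 * lin z w := by
  have h1 : (inner ℝ (om (cj o1 (a • z.fst)) (a • z.snd)) (om (cj o1 (b • w.fst)) (b • w.snd)) : ℝ) =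
      a ^ 2 * b ^ 2 * inner ℝ (om (cj o1 z.fst) z.snd) (om (cj o1 w.fst) w.snd) := by
    rw [map_smul, map_smul, map_smul, LinearMap.smul_apply, map_smul (cj o1) b w.fst,
      map_smul om, LinearMap.smul_apply, map_smul, real_inner_smul_left, real_inner_smul_left,
      real_inner_smul_right, real_inner_smul_right]
    ring
  unfold lin
  show (inner ℝ (a • z.fst) (a • z.fst) : ℝ) * inner ℝ (b • w.fst) (b • w.fst) +
    inner ℝ (a • z.snd) (a • z.snd) * inner ℝ (b • w.snd) (b • w.snd) +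
    2 * inner ℝ (om (cj o1 (a • z.fst)) (a • z.snd)) (om (cj o1 (b • w.fst)) (b • w.snd)) = _
  rw [h1]
  simp only [real_inner_smul_left, real_inner_smul_right]
  ring

theorem lin_self (z : OV) : lin z z = (inner ℝ z z : ℝ) ^ 2 := by
  unfold lin
  rw [om_CA.nm, om_CA.inner_cj_cj, inner_OV]
  ring

theorem lin'_smul_left (a : ℝ) (z w : OV) : lin' (a • z) w = a ^ 2 * lin' z w := by
  have h1 : (inner ℝ (om (a • z.fst) (ocj (a • z.snd))) (om w.fst (ocj w.snd)) : ℝ) =
      a ^ 2 * inner ℝ (om z.fst (ocj z.snd)) (om w.fst (ocj w.snd)) := by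
    rw [ocj_smul, map_smul, map_smul, LinearMap.smul_apply, real_inner_smul_left,
      real_inner_smul_left]
    ring
  unfold lin'
  show (inner ℝ (a • z.fst) (a • z.fst) : ℝ) * inner ℝ w.fst w.fst +
    inner ℝ (a • z.snd) (a • z.snd) * inner ℝ w.snd w.snd +
    2 * inner ℝ (om (a • z.fst) (ocj (a • z.snd))) (om w.fst (ocj w.snd)) = _
  rw [h1]
  simp only [real_inner_smul_left, real_inner_smul_right]
  ring

theorem lin'_emb (a b : HV 2) : lin' (emb a) (emb b) = ‖hp a b‖ ^ 2 := by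
  rw [← inner_prj_self, prj_emb, emb.inner_map_map, ← hp_re, hp_rm_left, star_mul_self_norm,
    Quaternion.re_coe]

/-- the point of the octonionic plane with the coordinates `z` -/
def SO (c : ℝ) (z : OV) : Fin 3 → Fin 3 → Oc :=
  Am (Real.cos (c * ‖z‖)) ((c * Real.sinc (c * ‖z‖)) • z)

theorem mul_sinc (x : ℝ) : x * Real.sinc x = Real.sin x := by
  rcases eq_or_ne x 0 with h | h
  · rw [h, zero_mul, Real.sin_zero]
  · rw [Real.sinc_of_ne_zero h, mul_div_cancel₀ _ h]

theorem inner_SO_self (c : ℝ) (z : OV) :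
    (inner ℝ ((c * Real.sinc (c * ‖z‖)) • z) ((c * Real.sinc (c * ‖z‖)) • z) : ℝ) =
      Real.sin (c * ‖z‖) ^ 2 := by
  rw [real_inner_smul_left, real_inner_smul_right, real_inner_self_eq_norm_sq, ← mul_sinc]
  ring

theorem isCayley_SO (c : ℝ) (z : OV) : IsCayley (SO c z) := by
  refine isCayley_Am ?_
  rw [inner_SO_self]
  exact Real.cos_sq_add_sin_sq _

theorem inner_SO (c : ℝ) (z w : OV) : ∑ i, ∑ j, (inner ℝ (SO c z i j) (SO c w i j) : ℝ) =
    KK c ‖z‖ ‖w‖ (inner ℝ z w) (lin z w) := by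
  unfold SO KK
  rw [inner_Am, lin_smul, real_inner_smul_left, real_inner_smul_right]
  ring

theorem inner_self_of_isCayley {A : Fin 3 → Fin 3 → Oc} (hA : IsCayley A) :
    ∑ i, ∑ j, (inner ℝ (A i j) (A i j) : ℝ) = 1 := by
  obtain ⟨t, z, -, h1, rfl⟩ := exists_Am hA
  rw [inner_Am, lin_self]
  have h2 : (inner ℝ z z : ℝ) = 1 - t ^ 2 := by linarith
  rw [h2]
  ring

/-- two points with inner product one are equal -/
theorem eq_of_inner_eq_one {A B : Fin 3 → Fin 3 → Oc} (hA : IsCayley A) (hB : IsCayley B)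
    (h : 1 ≤ ∑ i, ∑ j, (inner ℝ (A i j) (B i j) : ℝ)) : A = B := by
  have h1 := inner_self_of_isCayley hA
  have h2 := inner_self_of_isCayley hB
  have h3 : ∑ i, ∑ j, (inner ℝ (A i j - B i j) (A i j - B i j) : ℝ) ≤ 0 := by
    have h4 : ∀ i j, (inner ℝ (A i j - B i j) (A i j - B i j) : ℝ) =
        inner ℝ (A i j) (A i j) + inner ℝ (B i j) (B i j) - 2 * inner ℝ (A i j) (B i j) := by
      intro i j
      rw [inner_sub_left, inner_sub_right, inner_sub_right, real_inner_comm (A i j) (B i j)]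
      ring
    simp only [h4, Finset.sum_sub_distrib, Finset.sum_add_distrib, ← Finset.mul_sum]
    rw [h1, h2]
    linarith
  have h4 : ∀ i, 0 ≤ ∑ j, (inner ℝ (A i j - B i j) (A i j - B i j) : ℝ) := fun i =>
    Finset.sum_nonneg fun j _ => real_inner_self_nonneg
  have h5 := (Finset.sum_eq_zero_iff_of_nonneg fun i _ => h4 i).1
    (le_antisymm h3 (Finset.sum_nonneg fun i _ => h4 i))
  funext i j
  have h6 := (Finset.sum_eq_zero_iff_of_nonneg fun j _ =>
    (real_inner_self_nonneg (x := A i j - B i j))).1 (h5 i (Finset.mem_univ i)) j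
    (Finset.mem_univ j)
  exact sub_eq_zero.1 (inner_self_eq_zero.1 h6)

/-- every point has coordinates -/
theorem exists_SO {D : ℝ} (hD : 0 < D) {A : Fin 3 → Fin 3 → Oc} (hA : IsCayley A) :
    ∃ z : OV, ‖z‖ ≤ D ∧ SO (cc D) z = A := by
  obtain ⟨t, z, h0, h1, rfl⟩ := exists_Am hA
  have hc : 0 < cc D := by
    unfold cc
    positivity
  have hcD : cc D * D = Real.pi / 2 := by
    unfold cc
    field_simp
  rw [real_inner_self_eq_norm_sq] at h1
  have ht1 : t ≤ 1 := by nlinarith [sq_nonneg ‖z‖]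
  set r := Real.arccos t / cc D with hr
  have hr0 : 0 ≤ r := div_nonneg (Real.arccos_nonneg _) hc.le
  have hcr : cc D * r = Real.arccos t := by
    rw [hr]
    field_simp
  have hcos : Real.cos (cc D * r) = t := by
    rw [hcr, Real.cos_arccos (by linarith) ht1]
  have hsin : Real.sin (cc D * r) = ‖z‖ := by
    rw [hcr, Real.sin_arccos, ← h1, add_sub_cancel_left, Real.sqrt_sq (norm_nonneg _)]
  have hrD : r ≤ D := by
    rw [hr, div_le_iff₀ hc, mul_comm, hcD, Real.arccos_le_pi_div_two]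
    exact h0
  rcases eq_or_ne z 0 with hz | hz
  · have h2 : t = 1 := by
      rw [hz, norm_zero] at h1
      nlinarith
    have h3 : r = 0 := by rw [hr, h2, Real.arccos_one, zero_div]
    refine ⟨0, by rw [norm_zero]; exact hD.le, ?_⟩
    unfold SO
    rw [norm_zero, mul_zero, Real.cos_zero, h2, hz, smul_zero]
  · have hz0 : ‖z‖ ≠ 0 := norm_ne_zero_iff.2 hz
    have hn : ‖(r / ‖z‖) • z‖ = r := by
      rw [norm_smul, Real.norm_of_nonneg (div_nonneg hr0 (norm_nonneg _)), div_mul_cancel₀ _ hz0]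
    refine ⟨(r / ‖z‖) • z, hn.trans_le hrD, ?_⟩
    unfold SO
    rw [hn, hcos, smul_smul]
    have h2 : cc D * Real.sinc (cc D * r) * (r / ‖z‖) = 1 := by
      have h3 := mul_sinc (cc D * r)
      rw [hsin] at h3
      field_simp
      linarith
    rw [h2, one_smul]

end

end Vale.Agent.P231.QO
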