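import Vale.Agent.P231.WR.QAlg2
import Vale.Agent.P231.QO.Crd

/-! P231: the operator form attached to algebraic data of any cut multiplicity. -/

set_option maxSynthPendingDepth 3
set_option linter.unusedSectionVars false

open Module Set

namespace Vale.Agent.P231.QO

noncomputable section

open Vale.Agent.P231 Vale.Agent.P231.H512 Vale.Agent.P231.WR

variable {V : Type*} [NormedAddCommGroup V] [InnerProductSpace ℝ V]
  {P : V → V →ₗ[ℝ] V} {B : V →ₗ[ℝ] V →ₗ[ℝ] V →ₗ[ℝ] V →ₗ[ℝ] ℝ} [FiniteDimensional ℝ V] {l : ℕ}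

theorem TQ_clos_unit (h : QData P B) (hl : 2 ≤ l)
    (hr : ∀ u, ‖u‖ = 1 → finrank ℝ (LinearMap.range (P u)) = l)
    (hsame : ∀ u u' w, ‖u‖ = 1 → ‖u'‖ = 1 → P u u' = u' →
      (inner ℝ u w : ℝ) • u + P u w = (inner ℝ u' w : ℝ) • u' + P u' w)
    {u v : V} (hu : ‖u‖ = 1) (hv : ‖v‖ = 1) (huv : TQ B u u v = v) (w : V) :
    TQ B v v w = TQ B u u w := by
  obtain ⟨e, he, hue, hev⟩ : ∃ e : V, ‖e‖ = 1 ∧ P u e = e ∧ (inner ℝ e v : ℝ) = 0 := by
    let f : LinearMap.range (P u) →ₗ[ℝ] ℝ := innerₗ V v ∘ₗ (LinearMap.range (P u)).subtype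
    have h1 : LinearMap.ker f ≠ ⊥ := by
      apply LinearMap.ker_ne_bot_of_finrank_lt
      rw [hr u hu, finrank_self]
      omega
    obtain ⟨⟨r, hr1⟩, hr2, hr3⟩ := Submodule.exists_mem_ne_zero_of_ne_bot h1
    have hr0 : r ≠ 0 := fun h0 => hr3 (Subtype.ext h0)
    have hfr : (inner ℝ v r : ℝ) = 0 := hr2
    obtain ⟨z, hz⟩ := hr1
    have hPr : P u r = r := by rw [← hz, h.idem u z hu]
    obtain ⟨c, hc, y, hy, hy1⟩ := exists_unit_smul hr0
    refine ⟨y, hy1, ?_, ?_⟩
    · rw [hy, map_smul] at hPr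
      exact smul_right_injective V hc hPr
    · rw [hy, inner_smul_right] at hfr
      rw [real_inner_comm]
      exact (mul_eq_zero.1 hfr).resolve_left hc
  have h1 := hsame u e v hu he hue
  have h2 := hsame u e w hu he hue
  rw [← TQ_unit h hu, huv, hev, zero_smul, zero_add] at h1
  have h3 := hsame e v w he hv h1.symm
  rw [TQ_unit h hv, TQ_unit h hu, h2, h3]

theorem TQ_OT (h : QData P B) (hl : 2 ≤ l)
    (hr : ∀ u, ‖u‖ = 1 → finrank ℝ (LinearMap.range (P u)) = l)
    (hsame : ∀ u u' w, ‖u‖ = 1 → ‖u'‖ = 1 → P u u' = u' →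
      (inner ℝ u w : ℝ) • u + P u w = (inner ℝ u' w : ℝ) • u' + P u' w) : OT (TQ B) where
  comm a b w := by
    refine ext_inner_right ℝ fun w' => ?_
    rw [inner_TQ, inner_TQ, FF_apply, FF_apply, h.sym1 a b, real_inner_comm a b]
    ring
  symm a b w w' := by
    rw [inner_TQ, real_inner_comm, inner_TQ, FF_apply, FF_apply, h.sym2 a b, real_inner_comm w w']
    ring
  pair a b c d := by
    rw [inner_TQ, inner_TQ, FF_apply, FF_apply, QData.pair4 h, real_inner_comm a c,
      real_inner_comm b d, real_inner_comm b c, real_inner_comm a d]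
    ring
  idem u w := by
    rcases eq_or_ne u 0 with rfl | hu0
    · simp
    · obtain ⟨c, hc, y, rfl, hy⟩ := exists_unit_smul hu0
      have h1 : TQ B y y (TQ B y y w) = TQ B y y w := by
        rw [TQ_unit h hy, TQ_unit h hy, inner_add_right, inner_smul_right, inner_unit hy,
          real_inner_comm (P y w) y, h.perp y w hy, map_add, map_smul, Alg_P_self h hy,
          h.idem y w hy, smul_zero, zero_add, mul_one, add_zero]
      simp only [map_smul, LinearMap.smul_apply, inner_smul_left, inner_smul_right, inner_unit hy,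
        h1, RCLike.conj_to_real]
      module
  self u := by
    rcases eq_or_ne u 0 with rfl | hu0
    · simp
    · obtain ⟨c, hc, y, rfl, hy⟩ := exists_unit_smul hu0
      have h1 : TQ B y y y = y := by
        rw [TQ_unit h hy, Alg_P_self h hy, inner_unit hy, one_smul, add_zero]
      simp only [map_smul, LinearMap.smul_apply, inner_smul_left, inner_smul_right, inner_unit hy,
        h1, RCLike.conj_to_real]
      module
  clos u v w huv := by
    rcases eq_or_ne u 0 with rfl | hu0
    · simp
    rcases eq_or_ne v 0 with rfl | hv0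
    · simp
    obtain ⟨c, hc, y, rfl, hy⟩ := exists_unit_smul hu0
    obtain ⟨d, hd, z, rfl, hz⟩ := exists_unit_smul hv0
    have h1 : TQ B y y z = z := by
      simp only [map_smul, LinearMap.smul_apply, inner_smul_left, inner_smul_right,
        inner_unit hy, RCLike.conj_to_real] at huv
      have h2 : (c * c * d) • TQ B y y z = (c * c * d) • z := by
        linear_combination (norm := module) huv
      exact smul_right_injective V (by positivity) h2
    have h2 := TQ_clos_unit h hl hr hsame hy hz h1 w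
    simp only [map_smul, LinearMap.smul_apply, inner_smul_left, inner_smul_right,
      inner_unit hy, inner_unit hz, RCLike.conj_to_real, h2]
    module

/-- the dimension of the line -/
theorem finrank_fib (h : QData P B)
    (hr : ∀ u, ‖u‖ = 1 → finrank ℝ (LinearMap.range (P u)) = l) {u : V} (hu : ‖u‖ = 1) :
    finrank ℝ (fib (TQ B) u) = l + 1 := by
  let f : fib (TQ B) u →ₗ[ℝ] ℝ × LinearMap.range (P u) :=
    ((innerₗ V u) ∘ₗ (fib (TQ B) u).subtype).prod ((P u).rangeRestrict ∘ₗ (fib (TQ B) u).subtype)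
  have hf : ∀ b, f b = (inner ℝ u (b : V), (P u).rangeRestrict (b : V)) := fun b => rfl
  have hm : ∀ b : fib (TQ B) u, (inner ℝ u (b : V) : ℝ) • u + P u (b : V) = b := fun b => by
    rw [← TQ_unit h hu]
    exact b.2
  have h1 : Function.Injective f := by
    intro b c hbc
    rw [hf, hf, Prod.mk.injEq] at hbc
    have h2 := congrArg Subtype.val hbc.2
    have h3 : P u (b : V) = P u (c : V) := h2
    apply Subtype.ext
    rw [← hm b, ← hm c, hbc.1, h3]
  have h2 : Function.Surjective f := by
    rintro ⟨r, ⟨y, z, rfl⟩⟩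
    have e1 : P u (r • u + P u z) = P u z := by
      rw [map_add, map_smul, Alg_P_self h hu, h.idem u z hu, smul_zero, zero_add]
    have e2 : (inner ℝ u (r • u + P u z) : ℝ) = r := by
      rw [inner_add_right, inner_smul_right, inner_unit hu, real_inner_comm, h.perp u z hu]
      ring
    refine ⟨⟨r • u + P u z, ?_⟩, ?_⟩
    · show TQ B u u (r • u + P u z) = r • u + P u z
      rw [TQ_unit h hu, e1, e2]
    · rw [hf]
      exact Prod.ext e2 (Subtype.ext e1)
  have h3 := (LinearEquiv.ofBijective f ⟨h1, h2⟩).finrank_eq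
  rw [h3, finrank_prod, finrank_self, hr u hu, add_comm]

/-- in dimension twice the dimension of a line -/
theorem full_of (h : OT (TQ B)) (hf : ∀ u, ‖u‖ = 1 → finrank ℝ (fib (TQ B) u) = 8)
    (hV : finrank ℝ V = 16) {u : V} (hu : ‖u‖ = 1) {v : V} (hv : TQ B u u v = 0) {w : V}
    (hw : TQ B u u w = 0) : TQ B v v w = (inner ℝ v v : ℝ) • w := by
  rcases eq_or_ne v 0 with rfl | hv0
  · simp
  obtain ⟨c, hc, y, rfl, hy⟩ := exists_unit_smul hv0
  have hy0 : TQ B u u y = 0 := by
    rw [map_smul] at hv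
    exact (smul_eq_zero.1 hv).resolve_left hc
  have hyu : TQ B y y u = 0 := h.zero_symm hy0
  have hle : fib (TQ B) y ≤ LinearMap.ker (TQ B u u) := by
    intro b hb
    have hb' : TQ B y y b = b := hb
    rw [LinearMap.mem_ker, ← hb']
    exact h.mul_zero hyu b
  have hrange : LinearMap.range (TQ B u u) = fib (TQ B) u := by
    ext b
    constructor
    · rintro ⟨z, rfl⟩
      show TQ B u u (TQ B u u z) = TQ B u u z
      rw [h.idem, inner_unit hu, one_smul]
    · intro hb
      exact ⟨b, hb⟩
  have h1 := (TQ B u u).finrank_range_add_finrank_ker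
  rw [hrange, hf u hu, hV] at h1
  have h2 : fib (TQ B) y = LinearMap.ker (TQ B u u) :=
    Submodule.eq_of_le_of_finrank_eq hle (by rw [hf y hy]; omega)
  have h3 : w ∈ fib (TQ B) y := by
    rw [h2, LinearMap.mem_ker, hw]
  have h4 : TQ B y y w = w := h3
  simp only [map_smul, LinearMap.smul_apply, inner_smul_left, inner_smul_right, inner_unit hy, h4,
    RCLike.conj_to_real]
  module

end

end Vale.Agent.P231.QO
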