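import Vale.Agent.P231.QF.QT
import Vale.Agent.P231.QO.TQ

/-! P231: octonionic coordinates of the tangent space of a Blaschke manifold of model volume,
dimension sixteen and cut multiplicity seven. -/

set_option maxSynthPendingDepth 3
set_option linter.unusedSectionVars false

open Bundle Manifold Set Filter Module
open scoped ContDiff Manifold Topology ENNReal

namespace Vale.Agent.P231.QO

noncomputable section

open Vale.Agent.P234 Vale.Agent.P231 Vale.Agent.P231.H703 Vale.Agent.P231.H775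
  Vale.Agent.P231.H512 Vale.Agent.P231.QF Vale.Agent.P231.WR

variable {E : Type*} [NormedAddCommGroup E] [NormedSpace ℝ E] [FiniteDimensional ℝ E]
  {M : Type*} [MetricSpace M] [ChartedSpace E M]
  [RiemannianBundle (fun x : M => TangentSpace 𝓘(ℝ, E) x)]
  [IsManifold 𝓘(ℝ, E) ∞ M]
  [IsContMDiffRiemannianBundle 𝓘(ℝ, E) ∞ E (fun x : M => TangentSpace 𝓘(ℝ, E) x)]
  {e : ∀ x : M, TangentSpace 𝓘(ℝ, E) x → M}
  [CompactSpace M] [ConnectedSpace M] [IsRiemannianManifold 𝓘(ℝ, E) M]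

/-- **octonionic coordinates of the tangent space**, with a given adapted frame -/
theorem exists_T7 {D : ℝ} (R : Rig e D 7) {P : ∀ _ : M, E → E →ₗ[ℝ] E}
    (hP : ∀ x, PData e D 7 x (P x)) (hdim : finrank ℝ E = 16) (p : M)
    {u u₁ u₂ : TangentSpace 𝓘(ℝ, E) p} (hu : ‖u‖ = 1) (hu₁ : ‖u₁‖ = 1) (hu₂ : ‖u₂‖ = 1)
    (h₁ : (inner ℝ u u₁ : ℝ) = 0) (h₁' : tof p (P p (u : E) (u₁ : E)) = u₁)
    (h₂ : (inner ℝ u u₂ : ℝ) = 0) (h₂' : tof p (P p (u : E) (u₂ : E)) = 0) :
    ∃ T : TangentSpace 𝓘(ℝ, E) p ≃ₗᵢ[ℝ] OV, T u = ov o1 0 ∧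
      T u₁ = ov (oc ⟨0, 1, 0, 0⟩ 0) 0 ∧ T u₂ = ov 0 o1 ∧
      ∀ v w : TangentSpace 𝓘(ℝ, E) p, ‖v‖ = 1 →
        (inner ℝ v w : ℝ) ^ 2 + ‖tof p (P p (v : E) (w : E))‖ ^ 2 = lin (T v) (T w) := by
  obtain ⟨B, hB⟩ := exists_form R.facts R.pos (hP p)
  have hr : ∀ u : Eu E, ‖u‖ = 1 → finrank ℝ (LinearMap.range (trP p (P p) u)) = 7 :=
    fun u hu => (hP p).sph_rank hu
  have hsame : ∀ u u' w : Eu E, ‖u‖ = 1 → ‖u'‖ = 1 → trP p (P p) u u' = u' →
      (inner ℝ u w : ℝ) • u + trP p (P p) u w = (inner ℝ u' w : ℝ) • u' + trP p (P p) u' w :=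
    fun u u' w hu hu' huu' => PData.proj_eq' R.facts R.pos R.closed hP R.symm p u u' w hu hu' huu'
  have hT := TQ_OT hB (by norm_num) hr hsame
  have hfib : ∀ u : Eu E, ‖u‖ = 1 → finrank ℝ (fib (TQ B) u) = 8 :=
    fun u hu => finrank_fib hB hr hu
  have hV : finrank ℝ (Eu E) = 16 := by rw [finrank_euclideanSpace_fin, hdim]
  have hfs : ∀ v : E, fr p ((fr p).symm v) = v := fun v => (fr p).apply_symm_apply v
  have hin : ∀ v w : TangentSpace 𝓘(ℝ, E) p,
      (inner ℝ ((fr (E := E) p).symm v : Eu E) ((fr (E := E) p).symm w) : ℝ) = inner ℝ v w :=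
    fun v w => (sph_ip_symm (E := E) p v w).symm
  -- the operator in the coordinates
  have key : ∀ (v w : E), nm p v = 1 →
      TQ B ((fr p).symm v : Eu E) ((fr p).symm v) ((fr p).symm w) =
        (fr p).symm (ip p v w • v + P p v w) := by
    intro v w hv
    have ha1 : ‖((fr p).symm v : Eu E)‖ = 1 := by rw [← sph_nm_symm, hv]
    rw [TQ_unit hB ha1, ← sph_ip_symm]
    apply (fr p).injective
    rw [hfs, map_add, map_smul, sph_fr_trP, hfs, hfs]
  have k0' : ∀ a b : E, nm p a = 1 → ip p a b = 0 → P p a b = 0 →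
      TQ B ((fr p).symm a : Eu E) ((fr p).symm a) ((fr p).symm b) = 0 := by
    intro a b ha h4 h5
    rw [key a b ha, h4, h5, zero_smul, zero_add, map_zero]
  have k1' : ∀ a b : E, nm p a = 1 → ip p a b = 0 → P p a b = b →
      TQ B ((fr p).symm a : Eu E) ((fr p).symm a) ((fr p).symm b) = (fr p).symm b := by
    intro a b ha h4 h5
    rw [key a b ha, h4, h5, zero_smul, zero_add]
  have k0 : TQ B ((fr (E := E) p).symm u : Eu E) ((fr (E := E) p).symm u)
      ((fr (E := E) p).symm u₂) = 0 := k0' u u₂ hu h₂ h₂'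
  have k1 : TQ B ((fr (E := E) p).symm u : Eu E) ((fr (E := E) p).symm u)
      ((fr (E := E) p).symm u₁) = (fr (E := E) p).symm u₁ := k1' u u₁ hu h₁ h₁'
  have hnu : ‖((fr (E := E) p).symm u : Eu E)‖ = 1 := by
    have h3 := hin u u
    rw [real_inner_self_eq_norm_sq, real_inner_self_eq_norm_sq, hu] at h3
    exact (pow_eq_one_iff_of_nonneg (norm_nonneg _) two_ne_zero).1 (h3.trans (one_pow 2))
  have h8 : OT8 (TQ B) ((fr (E := E) p).symm u : Eu E) ((fr (E := E) p).symm u₂) :=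
    { ot := hT
      uu := by rw [hin, real_inner_self_eq_norm_sq, hu, one_pow]
      vv := by rw [hin, real_inner_self_eq_norm_sq, hu₂, one_pow]
      uv := k0
      full := fun v hv w hw => full_of hT hfib hV hnu hv hw
      fin := hfib _ hnu
      finV := hV }
  obtain ⟨J, j1, j2, j3, j4⟩ := h8.exists_coord k1
    (by rw [hin, real_inner_self_eq_norm_sq, hu₁, one_pow]) (by rw [hin, h₁])
  let L : TangentSpace 𝓘(ℝ, E) p ≃ₗ[ℝ] OV :=
    (fr p : Eu E ≃L[ℝ] E).symm.toLinearEquiv.trans J.toLinearEquiv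
  have hL : ∀ v : TangentSpace 𝓘(ℝ, E) p, L v = J ((fr (E := E) p).symm v) := fun v => rfl
  have hLn : ∀ v : TangentSpace 𝓘(ℝ, E) p, ‖L v‖ = ‖v‖ := by
    intro v
    rw [hL, J.norm_map]
    have h3 := hin v v
    rw [real_inner_self_eq_norm_sq, real_inner_self_eq_norm_sq] at h3
    exact (sq_eq_sq₀ (norm_nonneg _) (norm_nonneg _)).1 h3
  refine ⟨⟨L, hLn⟩, j1, j2, j3, fun v w hv => ?_⟩
  have h3 := j4 ((fr (E := E) p).symm v) ((fr (E := E) p).symm w)
  have h4 := key v w hv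
  have h5 : (inner ℝ (TQ B ((fr (E := E) p).symm v : Eu E) ((fr (E := E) p).symm v)
      ((fr (E := E) p).symm w)) ((fr (E := E) p).symm w) : ℝ) =
      inner ℝ ((inner ℝ v w : ℝ) • v + tof p (P p (v : E) (w : E))) w := by
    rw [← hin]
    exact congrArg (fun z : Eu E => (inner ℝ z ((fr (E := E) p).symm w) : ℝ)) h4
  have h6 : (inner ℝ (tof p (P p (v : E) (w : E))) w : ℝ) =
      ‖tof p (P p (v : E) (w : E))‖ ^ 2 := by
    have e1 : ∀ a b : E, nm p a = 1 → ip p (P p a b) b = ip p (P p a b) (P p a b) := by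
      intro a b ha
      have e2 := (hP p).symm a (P p a b) b ha
      rwa [(hP p).idem _ _ ha] at e2
    rw [← real_inner_self_eq_norm_sq]
    exact e1 v w hv
  rw [h5, inner_add_left, inner_smul_left, h6] at h3
  simp only [RCLike.conj_to_real] at h3
  rw [pow_two (inner ℝ v w : ℝ), h3]
  rfl

end

end Vale.Agent.P231.QO
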