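import Mathlib.Analysis.InnerProductSpace.PiL2

/-! P231: linear algebra of the curvature operator of a Blaschke manifold of model volume, any
multiplicity. `T u u` is `‖u‖²` times the projection onto the line of `u`. -/

set_option maxSynthPendingDepth 3
set_option linter.unusedSectionVars false

open Module Set

namespace Vale.Agent.P231.QO

noncomputable section

variable {V : Type*} [NormedAddCommGroup V] [InnerProductSpace ℝ V]

/-- `T u u` is `‖u‖²` times the projection onto the line of `u` -/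
structure OT (T : V →ₗ[ℝ] V →ₗ[ℝ] V →ₗ[ℝ] V) : Prop where
  comm : ∀ a b w, T a b w = T b a w
  symm : ∀ a b w w', (inner ℝ (T a b w) w' : ℝ) = inner ℝ w (T a b w')
  pair : ∀ a b c d, (inner ℝ (T a b c) d : ℝ) = inner ℝ (T c d a) b
  idem : ∀ u w, T u u (T u u w) = (inner ℝ u u : ℝ) • T u u w
  self : ∀ u, T u u u = (inner ℝ u u : ℝ) • u
  clos : ∀ u v w, T u u v = (inner ℝ u u : ℝ) • v →
    (inner ℝ u u : ℝ) • T v v w = (inner ℝ v v : ℝ) • T u u w

variable {T : V →ₗ[ℝ] V →ₗ[ℝ] V →ₗ[ℝ] V}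

theorem OT.zero_symm (h : OT T) {u v : V} (huv : T u u v = 0) : T v v u = 0 := by
  have h1 : (inner ℝ (T v v u) u : ℝ) = 0 := by rw [h.pair, huv, inner_zero_left]
  have h2 : (inner ℝ (T v v u) (T v v u) : ℝ) = 0 := by
    rw [← h.symm v v (T v v u) u, h.idem, inner_smul_left, h1, mul_zero]
  exact inner_self_eq_zero.1 h2

theorem OT.mul_zero (h : OT T) {u v : V} (huv : T u u v = 0) (w : V) :
    T v v (T u u w) = 0 := by
  rcases eq_or_ne u 0 with rfl | hu
  · simp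
  · have h1 : T u u (T u u w) = (inner ℝ u u : ℝ) • T u u w := h.idem u w
    have h2 := h.clos u (T u u w) v h1
    rw [huv, smul_zero] at h2
    have h3 : T (T u u w) (T u u w) v = 0 :=
      (smul_eq_zero.1 h2).resolve_left (inner_self_ne_zero.2 hu)
    exact h.zero_symm h3

theorem OT.orth (h : OT T) {u v : V} (huv : T u u v = 0) : (inner ℝ u v : ℝ) = 0 := by
  rcases eq_or_ne u 0 with rfl | hu
  · simp
  · have h1 := h.symm u u u v
    rw [h.self, huv, inner_smul_left, inner_zero_right] at h1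
    exact (mul_eq_zero.1 h1).resolve_left (by simpa using hu)

theorem OT.expand (h : OT T) {u v : V} (huv : T u u v = 0) (w : V) (s : ℝ) :
    s • ((2 : ℝ) • T u u (T u v w) + (2 : ℝ) • T u v (T u u w) -
      (2 * inner ℝ u u : ℝ) • T u v w) +
    s ^ 2 • ((4 : ℝ) • T u v (T u v w) - (inner ℝ u u : ℝ) • T v v w -
      (inner ℝ v v : ℝ) • T u u w) +
    s ^ 3 • ((2 : ℝ) • T u v (T v v w) + (2 : ℝ) • T v v (T u v w) -
      (2 * inner ℝ v v : ℝ) • T u v w) = 0 := by
  have h0 := h.orth huv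
  have h0' : (inner ℝ v u : ℝ) = 0 := by rw [real_inner_comm]; exact h0
  have h1 := h.idem (u + s • v) w
  have h2 : ∀ x, T v u x = T u v x := fun x => h.comm v u x
  have h3 := h.mul_zero huv w
  have h4 := h.mul_zero (h.zero_symm huv) w
  have h5 := h.idem u w
  have h6 := h.idem v w
  simp only [map_add, map_smul, LinearMap.add_apply, LinearMap.smul_apply, inner_add_left,
    inner_add_right, inner_smul_left, inner_smul_right, RCLike.conj_to_real, h0, h0', h2, h3, h4,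
    h5, h6, smul_add, smul_zero, add_zero, zero_add] at h1
  rw [← sub_eq_zero] at h1
  rw [← h1]
  module

theorem OT.XX (h : OT T) {u v : V} (huv : T u u v = 0) (w : V) :
    (4 : ℝ) • T u v (T u v w) = (inner ℝ u u : ℝ) • T v v w + (inner ℝ v v : ℝ) • T u u w := by
  have h1 := h.expand huv w 1
  have h2 := h.expand huv w (-1)
  linear_combination (norm := module) ((1 : ℝ) / 2) • h1 + ((1 : ℝ) / 2) • h2

theorem OT.AX (h : OT T) {u v : V} (huv : T u u v = 0) (w : V) :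
    T u u (T u v w) + T u v (T u u w) = (inner ℝ u u : ℝ) • T u v w := by
  have h1 := h.expand huv w 1
  have h2 := h.expand huv w (-1)
  have h3 := h.expand huv w 2
  linear_combination (norm := module) ((1 : ℝ) / 2) • h1 - ((1 : ℝ) / 4) • (h1 + h2) - ((1 : ℝ) / 12) • (h3 - (3 : ℝ) • h1 - h2)

theorem OT.expand_self (h : OT T) {u v : V} (huv : T u u v = 0) (s : ℝ) :
    s • ((2 : ℝ) • T u v u - (inner ℝ u u : ℝ) • v) +
    s ^ 2 • ((2 : ℝ) • T u v v - (inner ℝ v v : ℝ) • u) = 0 := by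
  have h0 := h.orth huv
  have h0' : (inner ℝ v u : ℝ) = 0 := by rw [real_inner_comm]; exact h0
  have h1 := h.self (u + s • v)
  have h2 : ∀ x, T v u x = T u v x := fun x => h.comm v u x
  have h3 := h.zero_symm huv
  have h5 := h.self u
  have h6 := h.self v
  simp only [map_add, map_smul, LinearMap.add_apply, LinearMap.smul_apply, inner_add_left,
    inner_add_right, inner_smul_left, inner_smul_right, RCLike.conj_to_real, h0, h0', h2, h3,
    h5, h6, huv, smul_add, smul_zero, add_zero, zero_add] at h1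
  rw [← sub_eq_zero] at h1
  rw [← h1]
  module

theorem OT.Xu (h : OT T) {u v : V} (huv : T u u v = 0) :
    (2 : ℝ) • T u v u = (inner ℝ u u : ℝ) • v := by
  have h1 := h.expand_self huv 1
  have h2 := h.expand_self huv (-1)
  linear_combination (norm := module) ((1 : ℝ) / 2) • h1 - ((1 : ℝ) / 2) • h2

theorem OT.Xv (h : OT T) {u v : V} (huv : T u u v = 0) :
    (2 : ℝ) • T u v v = (inner ℝ v v : ℝ) • u := by
  have h1 := h.expand_self huv 1
  have h2 := h.expand_self huv (-1)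
  linear_combination (norm := module) ((1 : ℝ) / 2) • h1 + ((1 : ℝ) / 2) • h2

/-! ### a base point `u₀` -/

/-- the Clifford action `ρ y v = 2 T u₀ v y` -/
def rho (T : V →ₗ[ℝ] V →ₗ[ℝ] V →ₗ[ℝ] V) (u₀ : V) : V →ₗ[ℝ] V →ₗ[ℝ] V :=
  (2 : ℝ) • (T u₀).flip

theorem rho_apply (u₀ y v : V) : rho T u₀ y v = (2 : ℝ) • T u₀ v y := rfl

variable {u₀ : V}

theorem OT.clos1 (h : OT T) (hu : (inner ℝ u₀ u₀ : ℝ) = 1) {b : V} (hb : T u₀ u₀ b = b) (w : V) :
    T b b w = (inner ℝ b b : ℝ) • T u₀ u₀ w := by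
  have h1 := h.clos u₀ b w (by rw [hu, one_smul, hb])
  rwa [hu, one_smul] at h1

theorem OT.kill (h : OT T) {v b : V} (hv : T u₀ u₀ v = 0)
    (hb : T u₀ u₀ b = b) : T v v b = 0 := by
  have h1 := h.mul_zero hv b
  rwa [hb] at h1

theorem OT.kill' (h : OT T) (hu : (inner ℝ u₀ u₀ : ℝ) = 1) {v b : V} (hv : T u₀ u₀ v = 0)
    (hb : T u₀ u₀ b = b) : T b b v = 0 := by
  rw [h.clos1 hu hb, hv, smul_zero]

theorem OT.rho_one (h : OT T) (hu : (inner ℝ u₀ u₀ : ℝ) = 1) {v : V} (hv : T u₀ u₀ v = 0) :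
    rho T u₀ u₀ v = v := by
  rw [rho_apply, h.Xu hv, hu, one_smul]

theorem OT.rho_mem (h : OT T) (hu : (inner ℝ u₀ u₀ : ℝ) = 1) {v y : V} (hv : T u₀ u₀ v = 0)
    (hy : T u₀ u₀ y = y) : T u₀ u₀ (rho T u₀ y v) = 0 := by
  have h1 := h.AX hv y
  rw [hy, hu, one_smul] at h1
  rw [rho_apply, map_smul, add_eq_right.1 h1, smul_zero]

theorem OT.rho_XX (h : OT T) {v y : V} (hv : T u₀ u₀ v = 0)
    (hy : T u₀ u₀ y = y) :
    (2 : ℝ) • T u₀ v (rho T u₀ y v) = (inner ℝ v v : ℝ) • y := by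
  have h1 := h.XX hv y
  rw [h.kill hv hy, hy, smul_zero, zero_add] at h1
  rw [← h1, rho_apply, map_smul, smul_smul]
  norm_num

theorem OT.rho_fib (h : OT T) (hu : (inner ℝ u₀ u₀ : ℝ) = 1) {v y : V} (hv : T u₀ u₀ v = 0)
    (hy : T u₀ u₀ y = y) :
    T v v (rho T u₀ y v) = (inner ℝ v v : ℝ) • rho T u₀ y v := by
  have h1 := h.XX hv (rho T u₀ y v)
  rw [h.rho_mem hu hv hy, smul_zero, add_zero, hu, one_smul] at h1
  have h2 : T u₀ v ((2 : ℝ) • T u₀ v (rho T u₀ y v)) = T u₀ v ((inner ℝ v v : ℝ) • y) := by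
    rw [h.rho_XX hv hy]
  rw [map_smul, map_smul] at h2
  rw [← h1, rho_apply u₀ y v, smul_smul, mul_comm, ← smul_smul, ← h2, smul_smul,
    ← rho_apply u₀ y v]
  norm_num

theorem OT.rho_inner (h : OT T) {v y : V} (hv : T u₀ u₀ v = 0)
    (hy : T u₀ u₀ y = y) (y' : V) :
    (inner ℝ (rho T u₀ y v) (rho T u₀ y' v) : ℝ) = inner ℝ y y' * inner ℝ v v := by
  have h2 : (inner ℝ ((2 : ℝ) • T u₀ v (rho T u₀ y v)) y' : ℝ) =
      inner ℝ ((inner ℝ v v : ℝ) • y) y' := by rw [h.rho_XX hv hy]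
  rw [inner_smul_left, inner_smul_left, h.symm] at h2
  simp only [RCLike.conj_to_real] at h2
  rw [rho_apply u₀ y' v, inner_smul_right, h2, mul_comm]

/-- `ρ y` is skew-symmetric up to a scalar part -/
theorem OT.rho_skew (h : OT T) {v : V} (y : V) (hv : T u₀ u₀ v = 0) :
    (inner ℝ (rho T u₀ y v) v : ℝ) = inner ℝ u₀ y * inner ℝ v v := by
  have h2 : (inner ℝ ((2 : ℝ) • T u₀ v v) y : ℝ) = inner ℝ ((inner ℝ v v : ℝ) • u₀) y := by
    rw [h.Xv hv]
  rw [inner_smul_left, inner_smul_left] at h2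
  simp only [RCLike.conj_to_real] at h2
  rw [rho_apply, inner_smul_left, h.symm, real_inner_comm]
  simp only [RCLike.conj_to_real]
  rw [h2, mul_comm]

/-- polarised version of `rho_skew` -/
theorem OT.rho_skew2 (h : OT T) {v w : V} (y : V) (hv : T u₀ u₀ v = 0) (hw : T u₀ u₀ w = 0) :
    (inner ℝ (rho T u₀ y v) w : ℝ) + inner ℝ (rho T u₀ y w) v =
      2 * inner ℝ u₀ y * inner ℝ v w := by
  have h1 := h.rho_skew y (v := v + w) (by rw [map_add, hv, hw, add_zero])
  have h2 := h.rho_skew y hv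
  have h3 := h.rho_skew y hw
  simp only [map_add, inner_add_left, inner_add_right] at h1
  rw [real_inner_comm v w] at h1
  linarith

/-- the base point may be moved inside the fibre -/
theorem OT.shift (h : OT T) (hu : (inner ℝ u₀ u₀ : ℝ) = 1) {b v : V} (hb : T u₀ u₀ b = b)
    (hv : T u₀ u₀ v = 0) (w : V) :
    T b (rho T u₀ b v) w = (inner ℝ b b : ℝ) • T u₀ v w := by
  rcases eq_or_ne v 0 with rfl | hv0
  · simp
  have hvv : (inner ℝ v v : ℝ) ≠ 0 := inner_self_ne_zero.2 hv0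
  set r := rho T u₀ b v with hr
  have hr0 : T u₀ u₀ r = 0 := h.rho_mem hu hv hb
  have a1 : (2 : ℝ) • T u₀ v b = r := rfl
  have a2 := h.rho_XX hv hb
  rw [← hr] at a2
  have a3 := h.rho_fib hu hv hb
  rw [← hr] at a3
  have a4 := h.kill hv hb
  have a5 : ∀ x, T v u₀ x = T u₀ v x := fun x => h.comm v u₀ x
  have c1 : (inner ℝ u₀ v : ℝ) = 0 := h.orth hv
  have c1' : (inner ℝ v u₀ : ℝ) = 0 := by rw [real_inner_comm]; exact c1
  have c2 : (inner ℝ b r : ℝ) = 0 := h.orth (h.kill' hu hr0 hb)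
  have c2' : (inner ℝ r b : ℝ) = 0 := by rw [real_inner_comm]; exact c2
  have c3 : (inner ℝ r r : ℝ) = inner ℝ b b * inner ℝ v v := h.rho_inner hv hb b
  have h1 : T (u₀ + v) (u₀ + v) (b + r) = (inner ℝ (u₀ + v) (u₀ + v) : ℝ) • (b + r) := by
    simp only [map_add, LinearMap.add_apply, inner_add_left, inner_add_right, a5, hb, hr0, a3, a4,
      c1, c1', hu]
    linear_combination (norm := module) a1 + a2
  have h2 := h.clos (u₀ + v) (b + r) w h1
  have a6 : ∀ x, T r b x = T b r x := fun x => h.comm r b x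
  have h3 := h.clos v r w a3
  rw [c3, mul_comm, ← smul_smul] at h3
  have h4 : T r r w = (inner ℝ b b : ℝ) • T v v w := smul_right_injective V hvv h3
  simp only [map_add, LinearMap.add_apply, inner_add_left, inner_add_right, a5, a6, c1, c1', c2,
    c2', c3, hu, h4, h.clos1 hu hb] at h2
  have h5 : (1 + inner ℝ v v : ℝ) ≠ 0 := by
    have := real_inner_self_nonneg (x := v)
    positivity
  have h6 : (1 + inner ℝ v v : ℝ) • T b r w = (1 + inner ℝ v v : ℝ) • (inner ℝ b b : ℝ) • T u₀ v w := by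
    linear_combination (norm := module) ((1 : ℝ) / 2) • h2
  exact smul_right_injective V h5 h6

/-- the quadratic relation -/
theorem OT.rho_sq (h : OT T) (hu : (inner ℝ u₀ u₀ : ℝ) = 1) {b v : V} (hb : T u₀ u₀ b = b)
    (hv : T u₀ u₀ v = 0) :
    rho T u₀ b (rho T u₀ b v) =
      (2 * inner ℝ u₀ b : ℝ) • rho T u₀ b v - (inner ℝ b b : ℝ) • v := by
  have hu' : T u₀ u₀ u₀ = u₀ := by rw [h.self, hu, one_smul]
  have hbu : T u₀ u₀ (b + u₀) = b + u₀ := by rw [map_add, hb, hu']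
  set r := rho T u₀ b v with hr
  have hr0 : T u₀ u₀ r = 0 := h.rho_mem hu hv hb
  have e1 := h.Xu (h.kill' hu hr0 hbu)
  have e2 := h.Xu (h.kill' hu hr0 hb)
  have e3 := h.Xu hr0
  have e4 := h.shift hu hb hv u₀
  have e5 := h.Xu hv
  rw [← hr] at e4
  rw [hu, one_smul] at e3 e5
  simp only [map_add, LinearMap.add_apply, inner_add_left, inner_add_right, hu,
    real_inner_comm b u₀] at e1
  rw [rho_apply, real_inner_comm b u₀]
  linear_combination (norm := module) e1 - e2 - e3 - (2 : ℝ) • e4 - (inner ℝ b b : ℝ) • e5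

/-- polarised -/
theorem OT.rho_anti (h : OT T) (hu : (inner ℝ u₀ u₀ : ℝ) = 1) {b c v : V} (hb : T u₀ u₀ b = b)
    (hc : T u₀ u₀ c = c) (hv : T u₀ u₀ v = 0) :
    rho T u₀ b (rho T u₀ c v) + rho T u₀ c (rho T u₀ b v) =
      (2 * inner ℝ u₀ b : ℝ) • rho T u₀ c v + (2 * inner ℝ u₀ c : ℝ) • rho T u₀ b v -
        (2 * inner ℝ b c : ℝ) • v := by
  have h1 := h.rho_sq hu (b := b + c) (by rw [map_add, hb, hc]) hv
  have h2 := h.rho_sq hu hb hv
  have h3 := h.rho_sq hu hc hv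
  simp only [map_add, LinearMap.add_apply, inner_add_left, inner_add_right] at h1
  rw [real_inner_comm b c] at h1
  linear_combination (norm := module) h1 - h2 - h3

/-- the key identity -/
theorem OT.key0 (h : OT T) (hu : (inner ℝ u₀ u₀ : ℝ) = 1) {a v : V}
    (ha : T u₀ u₀ a = a) (hv : T u₀ u₀ v = 0) (c : V) :
    (2 : ℝ) • T a v c = rho T u₀ c (rho T u₀ ((2 * inner ℝ u₀ a : ℝ) • u₀ - a) v) := by
  have hu' : T u₀ u₀ u₀ = u₀ := by rw [h.self, hu, one_smul]
  rcases eq_or_ne a 0 with rfl | ha0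
  · simp
  have haa : (inner ℝ a a : ℝ) ≠ 0 := inner_self_ne_zero.2 ha0
  set a' : V := (2 * inner ℝ u₀ a : ℝ) • u₀ - a with ha'
  have ha'Q : T u₀ u₀ a' = a' := by rw [ha', map_sub, map_smul, hu', ha]
  set v' : V := rho T u₀ a' v with hv'
  have hv'0 : T u₀ u₀ v' = 0 := h.rho_mem hu hv ha'Q
  have e1 : rho T u₀ a v' = (inner ℝ a a : ℝ) • v := by
    rw [hv', ha', map_sub, map_smul, LinearMap.sub_apply, LinearMap.smul_apply, h.rho_one hu hv,
      map_sub, map_smul, h.rho_sq hu ha hv]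
    module
  have e2 := h.shift hu ha hv'0 c
  rw [e1, map_smul, LinearMap.smul_apply] at e2
  have e3 : T a v c = T u₀ v' c := smul_right_injective V haa e2
  rw [e3, rho_apply]

/-- the polarised kernel relation -/
theorem OT.kill2 (h : OT T) {v w b : V} (hv : T u₀ u₀ v = 0) (hw : T u₀ u₀ w = 0)
    (hb : T u₀ u₀ b = b) : T v w b = 0 := by
  have h1 := h.kill (v := v + w) (by rw [map_add, hv, hw, add_zero]) hb
  have h2 := h.kill hv hb
  have h3 := h.kill hw hb
  have h4 : T w v b = T v w b := h.comm w v b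
  simp only [map_add, LinearMap.add_apply, h2, h3, h4, zero_add, add_zero] at h1
  have h5 : (2 : ℝ) • T v w b = 0 := by
    rw [two_smul]
    exact h1
  exact (smul_eq_zero.1 h5).resolve_left two_ne_zero

/-- **the quadratic form of the line of `a + v`** -/
theorem OT.form (h : OT T) (hu : (inner ℝ u₀ u₀ : ℝ) = 1)
    (hfull : ∀ v, T u₀ u₀ v = 0 → ∀ w, T u₀ u₀ w = 0 → T v v w = (inner ℝ v v : ℝ) • w)
    {a b v w : V} (ha : T u₀ u₀ a = a) (hb : T u₀ u₀ b = b) (hv : T u₀ u₀ v = 0)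
    (hw : T u₀ u₀ w = 0) :
    (inner ℝ (T (a + v) (a + v) (b + w)) (b + w) : ℝ) =
      inner ℝ a a * inner ℝ b b + inner ℝ v v * inner ℝ w w +
        2 * inner ℝ (rho T u₀ b (rho T u₀ ((2 * inner ℝ u₀ a : ℝ) • u₀ - a) v)) w := by
  have e1 := h.clos1 hu ha b
  have e2 := h.clos1 hu ha w
  rw [hb] at e1
  rw [hw, smul_zero] at e2
  have e3 := h.kill hv hb
  have e4 := hfull v hv w hw
  have e5 := h.key0 hu ha hv b
  have hu' : T u₀ u₀ u₀ = u₀ := by rw [h.self, hu, one_smul]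
  have e6 : T u₀ u₀ (rho T u₀ b (rho T u₀ ((2 * inner ℝ u₀ a : ℝ) • u₀ - a) v)) = 0 :=
    h.rho_mem hu (h.rho_mem hu hv (by rw [map_sub, map_smul, hu', ha])) hb
  rw [← e5] at e6 ⊢
  have e7 : ∀ x y : V, T u₀ u₀ x = 0 → T u₀ u₀ y = y → (inner ℝ x y : ℝ) = 0 := by
    intro x y hx hy
    rw [← hy, ← h.symm, hx, inner_zero_left]
  have e8 := e7 _ b e6 hb
  have e9 : (inner ℝ (T a v w) w : ℝ) = 0 := by
    rw [h.pair, h.kill2 hw hw ha, inner_zero_left]
  have e10 : (inner ℝ (T a v w) b : ℝ) = inner ℝ (T a v b) w := by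
    rw [h.symm, real_inner_comm]
  have e11 : (inner ℝ w b : ℝ) = 0 := e7 w b hw hb
  have e12 : (inner ℝ b w : ℝ) = 0 := by rw [real_inner_comm, e11]
  have e13 : ∀ z, T v a z = T a v z := fun z => h.comm v a z
  rw [inner_smul_left] at e8
  have e8' : (inner ℝ (T a v b) b : ℝ) = 0 :=
    (mul_eq_zero.1 e8).resolve_left (by norm_num)
  simp only [map_add, LinearMap.add_apply, inner_add_left, inner_add_right, e1, e2, e3, e4, e13,
    inner_smul_left, inner_zero_left, RCLike.conj_to_real, e8', e9, e10, e11, e12]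
  ring

end

end Vale.Agent.P231.QO
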